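import Vale.Agent.P193.Full.Core.Empty.Obs
import Vale.Agent.P193.Full.Core.Inst.Defs

/-! Predicates of the core instance as observations. -/

namespace Vale.Agent.P193.Core.Empty

open Inst

set_option linter.unusedSectionVars false

variable {d : Data} [DecidableEq d.M.A]

/-- The constructor of a push at a translate. -/
def pushCtor : Inst.Push → Inner d → Ctor d
  | .theta, m => .theta m
  | .omC, _ => .omC
  | .omD, _ => .omD
  | .omK, _ => .omK
  | .tMap, _ => .tM

/-- An elementary predicate moved by the two translations. -/
def obPred (k : Outer d) (m : Inner d) : Pred d → Ob d
  | .full => .top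
  | .hOne => .atom (.h k)
  | .zOne => .atom (.front k none)
  | .zFront s => .atom (.front k (some s))
  | .clean => .atom .cl
  | .gOne => .atom (.g m)
  | .kSet => .atom (.k m)
  | .gHOne => .and (.atom (.g m)) (.atom (.h k))

/-- An elementary predicate at a state and tag, moved by the two translations. -/
def obBase (k : Outer d) (m : Inner d) (B : Base d) : Ob d :=
  .and (.and (.atom (.st B.s)) (if B.b then .atom .tag else .not (.atom .tag))) (obPred k m B.p)

/-- An observation behind a path of edges. -/
def obPath (π : List (OEdge d)) (O : Ob d) : Ob d := π.foldr (fun e X => .sub e.1 X) O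

/-- An observation behind a pushed one, moved by the two translations. -/
noncomputable def obPush (k : Outer d) (m : Inner d) (p : Inst.Push) (O : Ob d) : Ob d :=
  .pop (pushCtor p m) k (if p = .theta then O else (exists_preG m O).choose)

/-- The observation of an atom. -/
noncomputable def obAtom : Inst.Atom d → Ob d
  | .base π k m B => obPath π (obBase k m B)
  | .push π k m p A => obPath π (obPush k m p (.and (.atom (.st A.st)) (obAtom A)))

end Vale.Agent.P193.Core.Empty
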