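import Vale.Agent.P193.Full.Core.Empty.PointDefs
import Vale.Agent.P193.Full.Core.Facts.Rules

/-! The points of the core model satisfy the axioms of virtual points. -/

namespace Vale.Agent.P193.Core.Empty

open FreeGroup Facts

set_option linter.unusedSectionVars false

variable {d : Data}

theorem pHA_apply (t : Outer d) (x : Point d) : pHA t x = { x with h := x.h * t⁻¹ } := rfl

theorem pGA_apply (t : Inner d) (x : Point d) : pGA t x = { x with g := x.g * t⁻¹ } := rfl

theorem zval_pHA (t : Outer d) (x : Point d) :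
    zval d (pHA t x) = t.2.1 * zval d x * t.2.2⁻¹ := by
  rw [pHA_apply, zval_hT]; simp

theorem pUM_of (j : Fin 3) {x : Point d} (h1 : x.st = .guess) (h2 : x.tag = true) :
    pUM j x = { x with g := x.g * proj j (guessVal d x.σ) } := by
  simp [pUM, h1, h2]

theorem pUM_id (j : Fin 3) {x : Point d} (h : ¬ (x.st = .guess ∧ x.tag = true)) :
    pUM j x = x := by
  simp [pUM, h]

/-- A point whose state is the target of an edge has the shape that the edge needs. -/
theorem exists_at {e : Edge d} {v : Point d} (h : v.st = e.tgt) :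
    ∃ σ b w g k, v = ⟨e.tgt, σ, b, w, g, k⟩ := by
  obtain ⟨st, σ, b, w, g, k⟩ := v
  cases (show st = e.tgt from h)
  exact ⟨σ, b, w, g, k, rfl⟩

theorem exists_guess {v : Point d} (hb : v.tag = false) (hs : v.st = .guess) :
    ∃ σ c g h, v = ⟨.guess, σ, false, c, g, h⟩ := by
  obtain ⟨st, σ, b, w, g, h⟩ := v
  cases (show st = .guess from hs)
  cases (show b = false from hb)
  exact ⟨σ, w, g, h, rfl⟩

theorem exists_finD {v : Point d} (hb : v.tag = false) (hs : v.st = .fin) (hh : v.h = 1) :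
    ∃ c g, v = ⟨.fin, .nil, false, c, g, 1⟩ := by
  obtain ⟨st, σ, b, w, g, h⟩ := v
  cases (show st = .fin from hs)
  cases (show b = false from hb)
  cases (show h = 1 from hh)
  exact ⟨w, g, by rw [path_fin σ]⟩

theorem pPush_spec (K : Ctor d) (x : Point d) :
    (pPush K x).st = .fin ∧ (pPush K x).tag = K.tag ∧ (pPush K x).h = 1 := by
  obtain ⟨st, σ, b, w, g, h⟩ := x
  cases K <;> cases b <;> (try cases st) <;> exact ⟨rfl, rfl, rfl⟩

section
variable [DecidableEq d.M.A]

theorem head?_eq_none_iff_eq_one {z : FA d} : z.toWord.head? = none ↔ z = 1 := by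
  rw [List.head?_eq_none_iff, FreeGroup.toWord_eq_nil_iff]

theorem toWord_sl_mul (c : Ltr d × Bool) (z : FA d) :
    (∃ v, z.toWord = flipS c :: v ∧ (sl c * z).toWord = v) ∨
      (z.toWord.head? ≠ some (flipS c) ∧ (sl c * z).toWord = c :: z.toWord) := by
  have e : (mk [flipS c] : FA d)⁻¹ = sl c := by
    simp [flipS, sl, inv_mk, invRev]
  have e' : flp (flipS c) = c := by simp [flp, flipS]
  have := toWord_inv_mul (flipS c) z
  rwa [e, e'] at this

theorem head_mul_inv_of_ne (c : Ltr d × Bool) (z : FA d) (h1 : z ≠ 1)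
    (h2 : z * (sl c)⁻¹ ≠ 1) :
    (z * (sl c)⁻¹).toWord.head? = z.toWord.head? := by
  by_cases h : z.toWord.getLast? = some c
  · obtain ⟨v, hv⟩ := List.getLast?_eq_some_iff.1 h
    have e := last_cancel hv
    rw [show (sl c)⁻¹ = (mk [c])⁻¹ from rfl, e, hv]
    cases v with
    | nil => exact absurd (eq_one_of_toWord_nil e) h2
    | cons a v => rfl
  · rw [show (sl c)⁻¹ = (mk [c])⁻¹ from rfl, last_flp h]
    cases hz : z.toWord with
    | nil => exact absurd (eq_one_of_toWord_nil hz) h1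
    | cons a v => rfl

theorem zval_cert {b : Bool} {u : Point d}
    (h : (zval d (pHA (lT ((cval d b)⁻¹)) u)).toWord.head? = none) : u ∈ zS (cval d b) := by
  rw [head?_eq_none_iff_eq_one, zval_pHA] at h
  simp only [lT, inv_one, mul_one] at h
  exact (inv_mul_eq_one.1 h).symm

/-- The points of the core model, with the maps of `PointDefs`. -/
noncomputable def pointSpace (hG : Good d) : VSpace d where
  U := Point d
  st x := x.st
  tag x := x.tag
  cl x := x.st = .guess ∧ clean d x.σ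
  fr x := (zval d x).toWord.head?
  hOne x := x.h = 1
  gOne x := x.tag = false ∧ x.g = 1
  kOne x := x.tag = false ∧ x.st = .guess ∧ guessVal d x.σ * x.g = 1
  hA := pHA
  gA := pGA
  edge := pEdge
  uM := pUM
  push := pPush
  comm_gh _ _ _ := rfl
  st_h _ _ := rfl
  tag_h _ _ := rfl
  cl_h _ _ := Iff.rfl
  gOne_h _ _ := Iff.rfl
  kOne_h _ _ := Iff.rfl
  st_g _ _ := rfl
  tag_g _ _ := rfl
  cl_g _ _ := Iff.rfl
  fr_g _ _ := rfl
  hOne_g _ _ := Iff.rfl
  fr_k k u := by simp [zval_pHA]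
  left_ne c u h := by
    simp only [zval_pHA, lT, inv_one, mul_one]
    rcases toWord_sl_mul c (zval d u) with ⟨v, h1, -⟩ | ⟨-, h2⟩
    · exact absurd (by simp [h1]) h
    · simp [h2]
  left_eq c u h := by
    simp only [zval_pHA, lT, inv_one, mul_one]
    rcases toWord_sl_mul c (zval d u) with ⟨v, h1, h2⟩ | ⟨h1, -⟩
    · rw [h2]
      simpa [flp, flipS] using not_flp_head h1
    · exact absurd h h1
  right_eq c u h1 h2 := by
    simp only [zval_pHA, rT, one_mul] at h2 ⊢
    exact head_mul_inv_of_ne c _ (fun h => h1 (head?_eq_none_iff_eq_one.2 h))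
      (fun h => h2 (head?_eq_none_iff_eq_one.2 h))
  conj_none s u h := by
    rw [head?_eq_none_iff_eq_one] at h ⊢
    simp [zval_pHA, h]
  cl_guess _ h := h.1
  gOne_tag _ h := h.1
  kOne_tag _ h := ⟨h.1, h.2.1⟩
  gdisj k u h h' := by
    have h2 : u.g * k⁻¹ = 1 := h'.2
    rwa [h.2, one_mul, inv_eq_one] at h2
  shape := by
    rintro ⟨st, σ, b, w, g, h⟩ hh
    cases (show h = 1 from hh)
    have hs := offset_shape σ
    rw [show zval d ⟨st, σ, b, w, g, 1⟩ = offset d σ from zval_hOne (rfl : (1 : Outer d) = 1)]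
    cases st with
    | guess => trivial
    | bd i => exact hs
    | fin => exact head?_eq_none_iff_eq_one.2 hs
    | step i q => exact hs
    | halt i q => exact hs
    | scan p s =>
      obtain ⟨hne, hred⟩ := hs
      cases ho : (offset d σ).toWord with
      | nil => exact absurd (eq_one_of_toWord_nil ho) hne
      | cons s' L => exact ⟨s', fun e => (isReduced_cons_iff.1 hred).2 s' (by simp [ho]) e, rfl⟩
  live u := ⟨u.σ⟩
  edge_decomp := by
    rintro ⟨st, σ, b, w, g, h⟩ hs
    cases σ with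
    | nil => exact absurd rfl hs
    | cons e he τ =>
      refine ⟨e, he, rfl, ⟨e.tgt, τ, b, w, g, (eT e)⁻¹ * h⟩, rfl, ?_⟩
      rw [pEdge_mk e he]; simp
  edge_inj e e' v v' he he' hv hv' h := by
    obtain ⟨σ, b, w, g, k, rfl⟩ := exists_at hv
    obtain ⟨σ', b', w', g', k', rfl⟩ := exists_at hv'
    rw [pEdge_mk e he, pEdge_mk e' he'] at h
    obtain rfl : e = e' := by
      simpa [Path.edges] using congrArg (fun y : Point d => y.σ.edges.head?) h
    exact ⟨rfl, (isPB_edgeG e he).2 _ _ _ ⟨_, _, _, _, _, rfl, rfl⟩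
      ⟨σ', b', w', g', k', rfl, h⟩⟩
  edge_st e v he hv := by
    obtain ⟨σ, b, w, g, k, rfl⟩ := exists_at hv
    rw [pEdge_mk e he]
  edge_tag e v he hv := by
    obtain ⟨σ, b, w, g, k, rfl⟩ := exists_at hv
    rw [pEdge_mk e he]
  edge_fr e v he hv := by
    obtain ⟨σ, b, w, g, k, rfl⟩ := exists_at hv
    rw [pEdge_mk e he, show eT e = (1, e.pval, e.qval) from rfl, zval_edge he]
  edge_gOne e v he hv := by
    obtain ⟨σ, b, w, g, k, rfl⟩ := exists_at hv
    rw [pEdge_mk e he]
  edge_h e v t he hv := by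
    obtain ⟨σ, b, w, g, k, rfl⟩ := exists_at hv
    rw [pEdge_mk e he, pHA_apply, pHA_apply, pEdge_mk e he]
    simp [mul_assoc]
  edge_g e v k he hv := by
    obtain ⟨σ, b, w, g, h, rfl⟩ := exists_at hv
    rw [pEdge_mk e he, pGA_apply, pGA_apply, pEdge_mk e he]
  edge_hOne e v he hv := by
    obtain ⟨σ, b, w, g, k, rfl⟩ := exists_at hv
    rw [pEdge_mk e he, pHA_apply, inv_inv]
    exact ⟨mul_eq_one_comm.1, mul_eq_one_comm.1⟩
  edge_cl_letter e i v he hk hv := by
    obtain rfl := edge_letter_eq he hk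
    obtain ⟨σ, b, w, g, k, rfl⟩ := exists_at hv
    rw [pEdge_mk _ he]
    exact ⟨fun h => ⟨rfl, h.2⟩, fun h => ⟨rfl, h.2⟩⟩
  edge_cl_junk e v he hk hv := by
    obtain ⟨σ, b, w, g, k, rfl⟩ := exists_at hv
    rw [pEdge_mk e he]
    exact fun h => by simpa [clean, hk] using h.2
  edge_cl_other e v he hk hv := by
    obtain ⟨σ, b, w, g, k, rfl⟩ := exists_at hv
    rw [pEdge_mk e he]
    simp [clean, hk]
  edge_k_letter e i v he hk hv := by
    obtain rfl := edge_letter_eq he hk
    obtain ⟨σ, b, w, g, k, rfl⟩ := exists_at hv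
    rw [pEdge_mk _ he, pGA_apply, inv_inv]
    show (_ ∧ _ ∧ d.gen i * guessVal d σ * g = 1) ↔ (_ ∧ _ ∧ guessVal d σ * (g * d.gen i) = 1)
    rw [mul_assoc, ← mul_assoc (guessVal d σ) g]
    exact and_congr_right' (and_congr (by simp [letterE]) ⟨mul_eq_one_comm.1, mul_eq_one_comm.1⟩)
  edge_k_other e v he hk hv := by
    obtain ⟨σ, b, w, g, k, rfl⟩ := exists_at hv
    rw [pEdge_mk e he]
    simp only [guessVal_cons_not_letter he hk, one_mul]
    tauto
  uM_id j u h := pUM_id j h
  uM_st j u := by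
    by_cases h : u.st = .guess ∧ u.tag = true
    · rw [pUM_of j h.1 h.2]
    · rw [pUM_id j h]
  uM_tag j u := by
    by_cases h : u.st = .guess ∧ u.tag = true
    · rw [pUM_of j h.1 h.2]
    · rw [pUM_id j h]
  uM_cl j u := by
    by_cases h : u.st = .guess ∧ u.tag = true
    · rw [pUM_of j h.1 h.2]
    · rw [pUM_id j h]
  uM_fr j u := by
    by_cases h : u.st = .guess ∧ u.tag = true
    · rw [pUM_of j h.1 h.2]; rfl
    · rw [pUM_id j h]
  uM_hOne j u := by
    by_cases h : u.st = .guess ∧ u.tag = true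
    · rw [pUM_of j h.1 h.2]
    · rw [pUM_id j h]
  uM_h j t u := by
    by_cases h : u.st = .guess ∧ u.tag = true
    · rw [pUM_of j h.1 h.2, pUM_of j (x := pHA t u) h.1 h.2]; rfl
    · rw [pUM_id j h, pUM_id j (x := pHA t u) h]
  uM_letter j e i v he hk hv hb := by
    obtain rfl := edge_letter_eq he hk
    obtain ⟨σ, b, w, g, k, rfl⟩ := exists_at hv
    rw [pEdge_mk _ he, pGA_apply, inv_inv,
      pUM_of j (x := ⟨(letterE i).src, .cons _ he σ, b, w, g, _⟩) rfl hb,
      pUM_of j (x := ⟨(letterE i).tgt, σ, b, w, g * proj j (d.gen i), k⟩) rfl hb, pEdge_mk _ he]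
    simp only [Point.mk.injEq, heq_eq_eq, and_true, true_and, mul_assoc]
    exact congrArg (g * ·) (proj_mul j _ _)
  uM_other j e v he hk hv := by
    obtain ⟨σ, b, w, g, k, rfl⟩ := exists_at hv
    rw [pEdge_mk e he]
    by_cases h : e.src = .guess ∧ b = true
    · rw [pUM_of j h.1 h.2]
      simp [guessVal_cons_not_letter he hk, Facts.proj_one]
    · rw [pUM_id j h]
  push_st K v := (pPush_spec K v).1
  push_tag K v := (pPush_spec K v).2.1
  push_hOne K v := (pPush_spec K v).2.2
  theta_r r k v := by simp [pGA_apply, pPush, mul_assoc]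
  theta_emb r t v := by simp [pHA_apply, pPush, mul_assoc]
  theta_coset r r' v v' h := by
    simp only [pPush, Point.mk.injEq, heq_eq_eq, true_and, and_true] at h
    refine ⟨v'.h⁻¹ * v.h, ?_⟩
    rw [_root_.map_mul, _root_.map_inv, eq_mul_inv_iff_mul_eq, mul_assoc, h.2, inv_mul_cancel_left]
  theta_inj v v' h := by
    simp only [pPush, mul_one] at h
    exact (isPB_thetaG hG).2 v v' (pPush (.theta 1) v') (by simp [thetaG, pPush, h])
      (by simp [thetaG, pPush])
  omC_inj := by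
    rintro ⟨st, σ, b, w, g, k⟩ ⟨st', σ', b', w', g', k'⟩ hb hb' h
    cases (show b = true from hb)
    cases (show b' = true from hb')
    exact isPB_omCG.2 _ _ _ ⟨_, σ, w, g, k, rfl, rfl⟩ ⟨_, σ', w', g', k', rfl, h⟩
  omD_inj := by
    rintro ⟨st, σ, b, w, g, k⟩ ⟨st', σ', b', w', g', k'⟩ hb hb' h
    cases (show b = false from hb)
    cases (show b' = false from hb')
    exact isPB_omDG.2 _ _ _ ⟨_, σ, w, g, k, rfl, rfl⟩ ⟨_, σ', w', g', k', rfl, h⟩
  omK_inj v v' hb hs hb' hs' h := by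
    obtain ⟨σ, c, g, k, rfl⟩ := exists_guess hb hs
    obtain ⟨σ', c', g', k', rfl⟩ := exists_guess hb' hs'
    exact isPB_omKG.2 _ _ _ ⟨σ, c, g, k, rfl, rfl⟩ ⟨σ', c', g', k', rfl, h⟩
  tM_inj v v' hb hs hh hb' hs' hh' h := by
    obtain ⟨c, g, rfl⟩ := exists_finD hb hs hh
    obtain ⟨c', g', rfl⟩ := exists_finD hb' hs' hh'
    exact isPB_tG.2 _ _ _ ⟨c, g, rfl, rfl⟩ ⟨c', g', rfl, h⟩
  omC_g := by
    rintro k ⟨st, σ, b, w, g, h⟩ hb
    cases (show b = true from hb)
    rfl
  omD_g := by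
    rintro k ⟨st, σ, b, w, g, h⟩ hb
    cases (show b = false from hb)
    rfl
  omK_g k v hb hs := by
    obtain ⟨σ, c, g, h, rfl⟩ := exists_guess hb hs
    simp [pGA_apply, pPush, mul_assoc]
  tM_g k v hb hs hh := by
    obtain ⟨c, g, rfl⟩ := exists_finD hb hs hh
    rfl
  theta_gOne v := by
    simp only [pPush, true_and, mul_one]
    exact ⟨fun h => toInner_inj hG (h.trans (_root_.map_one _).symm), fun h => by rw [h, _root_.map_one]⟩
  theta_gOne_range r v h := by
    refine ⟨v.h⁻¹, ?_⟩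
    rw [_root_.map_inv]
    exact inv_eq_of_mul_eq_one_right h.2
  omD_gOne := by
    rintro ⟨st, σ, b, w, g, h⟩ hb
    cases (show b = false from hb)
    exact Iff.rfl
  omK_gOne v hb hs := by
    obtain ⟨σ, c, g, h, rfl⟩ := exists_guess hb hs
    simp [pPush]
  theta_omD := by
    rintro r v ⟨st, σ, b, w, g, h⟩ hb e
    cases (show b = false from hb)
    simp [pPush] at e
  theta_omK r v v' hb hs e := by
    obtain ⟨σ, c, g, h, rfl⟩ := exists_guess hb hs
    simp [pPush] at e
  omD_omK := by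
    rintro ⟨st, σ, b, w, g, h⟩ v' hb hb' hs' e
    cases (show b = false from hb)
    obtain ⟨σ', c, g', h', rfl⟩ := exists_guess hb' hs'
    simp [pPush] at e
  omC_tM := by
    rintro ⟨st, σ, b, w, g, h⟩ v' hb hb' hs' hh' e
    cases (show b = true from hb)
    obtain ⟨c, g', rfl⟩ := exists_finD hb' hs' hh'
    simp [pPush] at e
  finC := by
    rintro ⟨st, σ, b, w, g, h⟩ hs hh hb
    cases (show st = .fin from hs)
    cases (show h = 1 from hh)
    cases (show b = true from hb)
    obtain rfl := path_fin σ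
    cases w with
    | omC τ c k => exact Or.inl ⟨⟨_, τ, true, c, g, k⟩, rfl, rfl⟩
    | tpush c => exact Or.inr ⟨⟨.fin, .nil, false, c, g, 1⟩, rfl, rfl, rfl, rfl⟩
  rule1 j u hc hh hb hf := by
    have hu : u ∈ certS true := ⟨⟨hc, hh⟩, zval_cert hf⟩
    rw [pUM_of j hc.1 hb]
    simp [(cert_guessVal hG hu).2 rfl, Facts.proj_one]
  rule1' u hc hh hb hf := by
    have hu : u ∈ certS true := ⟨⟨hc, hh⟩, zval_cert hf⟩
    simp [(cert_guessVal hG hu).2 rfl, hb, hc.1]
  rule2 u hc hh hb hf h := by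
    have hu : u ∈ certS false := ⟨⟨hc, hh⟩, zval_cert hf⟩
    have h1 : guessVal d u.σ = 1 := by simpa [h.1.2] using h.2.2.2
    exact absurd ((cert_guessVal hG hu).1 h1) (by simp)

end

end Vale.Agent.P193.Core.Empty
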