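import Vale.Agent.P193.Full.Core.Empty.AtomObDefs
import Vale.Agent.P193.Full.Core.Empty.PointSpace
import Vale.Agent.P193.Full.Core.Inst.Closed

/-! At real points the observation of an atom is membership in its set. -/

namespace Vale.Agent.P193.Core.Empty

open Inst Facts

set_option linter.unusedSectionVars false

variable {d : Data} [DecidableEq d.M.A]

theorem holds_obPath (hG : Good d) {O : Ob d} {Y : Set (Point d)}
    (h : ∀ x : Point d, (pointSpace hG).Holds O x ↔ x ∈ Y) :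
    ∀ (π : List (OEdge d)) (x : Point d),
      (pointSpace hG).Holds (obPath π O) x ↔ x ∈ pathImg π Y := by
  intro π
  induction π with
  | nil => exact h
  | cons e π ih =>
    intro x
    show (∃ v : Point d, e.1.OK ∧ v.st = e.1.tgt ∧ pEdge e.1 v = x ∧
      (pointSpace hG).Holds (obPath π O) v) ↔ x ∈ gimg (edgeG e.1 e.2) (pathImg π Y)
    constructor
    · rintro ⟨v, -, hv, rfl, hO⟩
      obtain ⟨σ, b, w, g, k, rfl⟩ := exists_at hv
      exact ⟨_, (ih _).1 hO, σ, b, w, g, k, rfl, pEdge_mk e.1 e.2 σ b w g k⟩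
    · rintro ⟨v, hv, σ, b, w, g, k, rfl, rfl⟩
      exact ⟨_, e.2, rfl, pEdge_mk e.1 e.2 σ b w g k, (ih _).2 hv⟩

theorem holds_obBase (hG : Good d) (k : Outer d) (m : Inner d) (B : Base d) (x : Point d) :
    (pointSpace hG).Holds (obBase k m B) x ↔ x ∈ gimg (hT k) (gimg (gT m) B.set) := by
  rw [mem_gimg_hT, mem_gimg_gT]
  obtain ⟨s, b, p⟩ := B
  refine and_congr (and_congr Iff.rfl ?_) ?_
  · cases b with
    | true => exact Iff.rfl
    | false => exact ⟨fun h => (Bool.not_eq_true _).mp h, fun h => (Bool.not_eq_true _).mpr h⟩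
  · cases p with
    | zOne => exact head?_eq_none_iff_eq_one
    | _ => exact Iff.rfl

/-- A push is what its constructor does on its domain. -/
theorem push_graph_iff (hG : Good d) (p : Inst.Push) (a y : Point d) :
    (a, y) ∈ p.graph ↔ (pointSpace hG).Dom (pushCtor p 1) a ∧ y = pPush (pushCtor p 1) a := by
  cases p
  · show y = _ ↔ _
    simp [VSpace.Dom, pPush, pushCtor]
  · constructor
    · rintro ⟨s, σ, c, g, h, rfl, rfl⟩; exact ⟨rfl, rfl⟩
    · rintro ⟨hb, rfl⟩
      obtain ⟨s, σ, b, w, g, h⟩ := a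
      cases (show b = true from hb)
      exact ⟨s, σ, w, g, h, rfl, rfl⟩
  · constructor
    · rintro ⟨s, σ, c, g, h, rfl, rfl⟩; exact ⟨rfl, rfl⟩
    · rintro ⟨hb, rfl⟩
      obtain ⟨s, σ, b, w, g, h⟩ := a
      cases (show b = false from hb)
      exact ⟨s, σ, w, g, h, rfl, rfl⟩
  · constructor
    · rintro ⟨σ, c, g, h, rfl, rfl⟩; exact ⟨⟨rfl, rfl⟩, rfl⟩
    · rintro ⟨⟨hb, hs⟩, rfl⟩
      obtain ⟨σ, c, g, h, rfl⟩ := exists_guess hb hs
      exact ⟨σ, c, g, h, rfl, rfl⟩
  · constructor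
    · rintro ⟨c, g, rfl, rfl⟩; exact ⟨⟨rfl, rfl, rfl⟩, rfl⟩
    · rintro ⟨⟨hb, hs, hh⟩, rfl⟩
      obtain ⟨c, g, rfl⟩ := exists_finD hb hs hh
      exact ⟨c, g, rfl, rfl⟩

theorem pushCtor_g (hG : Good d) {p : Inst.Push} (hp : p ≠ .theta) (k : Inner d) {v : Point d}
    (hv : (pointSpace hG).Dom (pushCtor p 1) v) :
    pGA k (pPush (pushCtor p 1) v) = pPush (pushCtor p 1) (pGA k v) := by
  cases p
  · exact absurd rfl hp
  · exact (pointSpace hG).omC_g k v hv
  · exact (pointSpace hG).omD_g k v hv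
  · exact (pointSpace hG).omK_g k v hv.1 hv.2
  · exact (pointSpace hG).tM_g k v hv.1 hv.2.1 hv.2.2

theorem holds_obPush (hG : Good d) (k : Outer d) (m : Inner d) (p : Inst.Push) {O : Ob d}
    {Y : Set (Point d)} (h : ∀ x : Point d, (pointSpace hG).Holds O x ↔ x ∈ Y) (x : Point d) :
    (pointSpace hG).Holds (obPush k m p O) x ↔
      x ∈ gimg (hT k) (gimg (gT m) (gimg p.graph Y)) := by
  rw [mem_gimg_hT, mem_gimg_gT]
  show (∃ v : Point d, (pointSpace hG).Dom (pushCtor p m) v ∧
      pHA k x = pPush (pushCtor p m) v ∧ _) ↔ pGA m (pHA k x) ∈ gimg p.graph Y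
  by_cases hp : p = .theta
  · subst hp
    have key : ∀ a : Point d, pGA m (pPush (Ctor.theta m) a) = pPush (Ctor.theta 1) a := fun a =>
      ((pointSpace hG).theta_r m m a).trans (by rw [mul_inv_cancel]; rfl)
    constructor
    · rintro ⟨a, -, ha, hO⟩
      rw [if_pos rfl] at hO
      refine ⟨a, (h a).1 hO, (push_graph_iff hG .theta a _).2 ⟨trivial, ?_⟩⟩
      rw [ha]; exact key a
    · rintro ⟨a, hY, ha⟩
      obtain ⟨-, hy⟩ := (push_graph_iff hG .theta a _).1 ha
      refine ⟨a, trivial, (pGA m).injective (hy.trans (key a).symm), ?_⟩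
      rw [if_pos rfl]
      exact (h a).2 hY
  · have hC : pushCtor p m = pushCtor p 1 := by cases p <;> first | exact absurd rfl hp | rfl
    have hspec := (exists_preG m O).choose_spec.2 (pointSpace hG)
    rw [hC]
    constructor
    · rintro ⟨v, hv, hx, hO⟩
      rw [if_neg hp] at hO
      refine ⟨pGA m v, (h _).1 ((hspec v).1 hO), (push_graph_iff hG p _ _).2
        ⟨(pointSpace hG).dom_g _ m hv, ?_⟩⟩
      rw [hx]
      exact pushCtor_g hG hp m hv
    · rintro ⟨a, hY, ha⟩
      obtain ⟨hd, hy⟩ := (push_graph_iff hG p a _).1 ha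
      have hd' : (pointSpace hG).Dom (pushCtor p 1) (pGA m⁻¹ a) :=
        (pointSpace hG).dom_g _ m⁻¹ hd
      have hback : pGA m (pGA m⁻¹ a) = a := by simp [pGA_apply]
      refine ⟨pGA m⁻¹ a, hd', (pGA m).injective ?_, ?_⟩
      · rw [pushCtor_g hG hp m hd', hback]; exact hy
      · rw [if_neg hp]
        refine (hspec _).2 ((h _).2 ?_)
        show pGA m (pGA m⁻¹ a) ∈ Y
        rw [hback]; exact hY

/-- At a real point the observation of an atom is membership in its set. -/
theorem holds_obAtom (hG : Good d) :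
    ∀ (A : Inst.Atom d) (x : Point d),
      (pointSpace hG).Holds (obAtom A) x ↔ x ∈ A.set
  | .base π k m B, x => holds_obPath hG (holds_obBase hG k m B) π x
  | .push π k m p A, x =>
    holds_obPath hG (holds_obPush hG k m p (O := .and (.atom (.st A.st)) (obAtom A)) (Y := A.set)
      fun y => ⟨fun h => (holds_obAtom hG A y).1 h.2,
        fun h => ⟨(A.set_sub_stTag h).1, (holds_obAtom hG A y).2 h⟩⟩) π x

end Vale.Agent.P193.Core.Empty
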