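import Vale.Agent.P193.Full.Core.Empty.Obs

/-! What the rules say about a virtual point over trivial outer coordinate whose offset is known
exactly or up to a prefix: a real path of that state realises it, and at a legit offset the two
inner predicates are tied as certified. -/

namespace Vale.Agent.P193.Core.Empty

open FreeGroup

set_option linter.unusedSectionVars false

variable {d : Data} [DecidableEq d.M.A]

theorem frShape_iff (s : State d) (x : FA d) : FrShape s x.toWord.head? ↔ Shape s x := by
  cases s with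
  | guess => exact Iff.rfl
  | bd i => exact Iff.rfl
  | fin =>
    show x.toWord.head? = none ↔ x = 1
    rw [List.head?_eq_none_iff, toWord_eq_nil_iff]
  | step i q => exact Iff.rfl
  | halt i q => exact Iff.rfl
  | scan p s =>
    show (∃ s', Follows d s s' ∧ x.toWord.head? = some s') ↔ x ≠ 1 ∧ _
    rw [isReduced_cons_iff]
    constructor
    · rintro ⟨s', hf, hs'⟩
      refine ⟨fun h => by simp [h] at hs', isReduced_toWord, fun y hy => ?_⟩
      rw [hs'] at hy
      exact Option.some.inj hy ▸ hf
    · rintro ⟨h1, -, h2⟩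
      cases hx : x.toWord with
      | nil => exact absurd (toWord_eq_nil_iff.1 hx) h1
      | cons a w => exact ⟨a, h2 a (by simp [hx]), rfl⟩

namespace VSpace

variable (V : VSpace d)

/-- The offset of a virtual point is exactly `x`. -/
def Ex (u : V.U) (x : FA d) : Prop := V.fr (V.hA (lT x⁻¹) u) = none

theorem zp_left_none {w : V.U} (hw : V.fr w = none) :
    ∀ (L : List (Ltr d × Bool)) (n : ℕ), FreeGroup.IsReduced L →
      V.zp n (V.hA (lT (FreeGroup.mk L)) w) = L.take n := by
  intro L
  induction L with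
  | nil =>
    intro n _
    rw [show lT (d := d) (FreeGroup.mk []) = 1 from rfl, V.hA_one, V.zp_none hw]; simp
  | cons c L ih =>
    intro n hr
    cases n with
    | zero => rfl
    | succ n =>
      have hf : V.fr (V.hA (lT (FreeGroup.mk (c :: L))) w) = some c := by
        rw [V.fr_left_none hw _ hr]; rfl
      rw [V.zp_some hf, List.take_succ_cons]
      congr 1
      rw [← V.hA_mul, ← lT_mul, sl_cons, ← mul_assoc, sl_flip, inv_mul_cancel, one_mul]
      exact ih n (isReduced_cons_iff.1 hr).1

theorem zp_of_ex {u : V.U} {x : FA d} (h : V.Ex u x) (n : ℕ) : V.zp n u = x.toWord.take n := by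
  have := V.zp_left_none h x.toWord n isReduced_toWord
  rwa [mk_toWord, ← V.hA_mul, ← lT_mul, mul_inv_cancel, show lT (d := d) 1 = 1 from rfl,
    V.hA_one] at this

theorem fr_of_ex {u : V.U} {x : FA d} (h : V.Ex u x) : V.fr u = x.toWord.head? := by
  rw [← V.zp_head 0 u, V.zp_of_ex h]
  cases x.toWord <;> simp

theorem ex_of_short : ∀ (n : ℕ) (u : V.U), (V.zp n u).length < n →
    V.Ex u (FreeGroup.mk (V.zp n u)) := by
  intro n
  induction n with
  | zero => intro u h; omega
  | succ n ih =>
    intro u h
    cases hu : V.fr u with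
    | none =>
      rw [V.zp_none hu, Ex, ← one_eq_mk, inv_one, show lT (d := d) 1 = 1 from rfl, V.hA_one]
      exact hu
    | some c =>
      rw [V.zp_some hu] at h ⊢
      have := ih _ (by simpa using h)
      rw [Ex, ← V.hA_mul, ← lT_mul] at this
      rwa [Ex, sl_cons, mul_inv_rev, ← sl_flip]

theorem shape_of_ex {u : V.U} {x : FA d} (hu : V.hOne u) (h : V.Ex u x) :
    Shape (V.st u) x := by
  rw [← frShape_iff, ← V.fr_of_ex h]
  exact V.shape u hu

theorem zp_edge (e : Edge d) (he : e.OK) :
    ∀ (n : ℕ) (v : V.U), V.st v = e.tgt → V.zp n (V.edge e v) = V.zp n v := by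
  intro n
  induction n with
  | zero => intros; rfl
  | succ n ih =>
    intro v hv
    have hf := V.edge_fr e v he hv
    cases hc : V.fr v with
    | none => rw [V.zp_none hc, V.zp_none (hf.trans hc)]
    | some c =>
      rw [V.zp_some hc, V.zp_some (hf.trans hc), V.edge_h e v _ he hv,
        ih _ (by rw [V.st_h, hv])]

/-- The start of an edge over trivial outer coordinate, moved there too. -/
theorem edge_start {u : V.U} (hu : V.hOne u) (hs : V.st u ≠ .fin) :
    ∃ e : Edge d, e.OK ∧ e.src = V.st u ∧ ∃ v, V.st v = e.tgt ∧ V.hOne v ∧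
      u = V.edge e (V.hA (eT e) v) ∧ ∀ x, V.Ex u x → V.Ex v (e.pval⁻¹ * x * e.qval) := by
  obtain ⟨e, he, hsrc, v, hv, rfl⟩ := V.edge_decomp u hs
  refine ⟨e, he, hsrc, V.hA (eT e)⁻¹ v, by rw [V.st_h, hv], (V.edge_hOne e v he hv).1 hu,
    by rw [V.hA_inv'], fun x hx => ?_⟩
  rw [Ex, V.edge_h e v _ he hv, V.edge_fr e _ he (by rw [V.st_h, hv])] at hx
  rw [Ex, ← V.hA_mul]
  have := V.conj_none e.qval⁻¹ _ hx
  rwa [← V.hA_mul, show ((1, e.qval⁻¹, e.qval⁻¹) : Outer d) * lT x⁻¹ =
    lT (e.pval⁻¹ * x * e.qval)⁻¹ * (eT e)⁻¹ by simp [lT, eT, mul_assoc]] at this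

/-- A state all of whose edges spell one letter and erase none. -/
def Plain : State d → Prop
  | .halt _ _ => True
  | .scan _ _ => True
  | .fin => True
  | _ => False

/-- An edge that spells one letter and erases none. -/
theorem plain_step {e : Edge d} (he : e.OK) {s : Ltr d × Bool} (hp : e.p = [s]) (hq : e.q = [])
    {v : V.U} (hv : V.st v = e.tgt) (h1 : V.hOne v)
    (hs : ∀ y, FrShape e.tgt (some y) → y ≠ flipS s) (n : ℕ) :
    V.zp (n + 1) (V.edge e (V.hA (eT e) v)) = s :: V.zp n v ∧
      ∀ σ : Path d e.tgt, (offset d σ).toWord.take n = V.zp n v →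
        (offset d (.cons e he σ)).toWord.take (n + 1) = s :: V.zp n v := by
  have het : eT e = lT (sl s) := by
    simp [eT, lT, Edge.pval, sl, hp, qval_eq, hq, mk_pos_nil]
  refine ⟨?_, fun σ hσ => ?_⟩
  · rw [V.zp_edge e he _ _ (by rw [V.st_h, hv]), het]
    have hf : V.fr v ≠ some (flipS s) := fun h =>
      hs _ (h ▸ hv ▸ V.shape v h1) rfl
    rw [V.zp_some (V.left_ne s v hf), ← V.hA_mul, ← lT_mul, sl_flip, inv_mul_cancel,
      show lT (d := d) 1 = 1 from rfl, V.hA_one]
  · rw [offset_cons_plain e he s hp hq, toWord_cons_of_reduced, List.take_succ_cons, hσ]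
    refine isReduced_cons_iff.2 ⟨isReduced_toWord, fun y hy => hs y ?_⟩
    rw [← hy, frShape_iff]
    exact offset_shape σ

theorem plain_prefix : ∀ (n : ℕ) (u : V.U), V.hOne u → Plain (V.st u) →
    ∃ σ : Path d (V.st u), (offset d σ).toWord.take n = V.zp n u := by
  intro n
  induction n with
  | zero => intro u _ _; obtain ⟨σ⟩ := V.live u; exact ⟨σ, rfl⟩
  | succ n ih =>
    intro u hu hp
    by_cases hfin : V.st u = .fin
    · obtain ⟨σ⟩ := V.live u
      refine ⟨σ, ?_⟩
      have h1 : ∀ {t : State d} (τ : Path d t), t = .fin → offset d τ = 1 := by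
        intro t τ ht; subst ht; exact offset_shape τ
      have h2 := V.shape u hu
      rw [hfin] at h2
      rw [V.zp_none h2, h1 σ hfin]
      simp
    obtain ⟨e, he, hsrc, v, hv, h1, rfl, -⟩ := V.edge_start hu hfin
    rw [← hsrc] at hp ⊢
    obtain ⟨s, hps, hqs, hpl, hs⟩ : ∃ s, e.p = [s] ∧ e.q = [] ∧ Plain e.tgt ∧
        ∀ y, FrShape e.tgt (some y) → y ≠ flipS s := by
      cases he with
      | haltMid i q a q' hq hf hl =>
        refine ⟨((a, i), true), rfl, rfl, trivial, ?_⟩
        rintro y ⟨b, -, hb⟩ rfl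
        simp [flipS] at hb
      | haltLast i q q' hq ha =>
        exact ⟨((d.M.last, i), true), rfl, rfl, trivial, fun y hy => by simp [FrShape] at hy⟩
      | scan p t t' hf =>
        refine ⟨t', rfl, rfl, trivial, ?_⟩
        rintro y ⟨z, hz, hzy⟩
        rw [Option.some.inj hzy]
        exact hz
      | scanEnd p t t' hf hL =>
        exact ⟨t', rfl, rfl, trivial, fun y hy => by simp [FrShape] at hy⟩
      | flood src p t hst => cases hst <;> exact absurd hp (by simp [Plain])
      | floodEnd src p t hst hL => cases hst <;> exact absurd hp (by simp [Plain])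
      | _ => exact absurd hp (by simp [Plain])
    obtain ⟨σ, hσ⟩ := ih v h1 (hv ▸ hpl)
    obtain ⟨h3, h4⟩ := V.plain_step he hps hqs hv h1 hs n
    have key : ∀ {t : State d} (σ : Path d t) (ht : t = e.tgt),
        (offset d σ).toWord.take n = V.zp n v →
        ∃ τ : Path d e.src, (offset d τ).toWord.take (n + 1) = s :: V.zp n v := by
      intro t σ ht hσ
      subst ht
      exact ⟨_, h4 σ hσ⟩
    obtain ⟨τ, hτ⟩ := key σ hv hσ
    exact ⟨τ, by rw [h3, hτ]⟩

theorem plain_exact {u : V.U} (hu : V.hOne u) (hp : Plain (V.st u)) {x : FA d} (hx : V.Ex u x) :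
    ∃ σ : Path d (V.st u), offset d σ = x := by
  obtain ⟨σ, hσ⟩ := V.plain_prefix (x.toWord.length + 1) u hu hp
  rw [V.zp_of_ex hx, List.take_of_length_le (l := x.toWord) (by omega)] at hσ
  refine ⟨σ, toWord_injective ?_⟩
  have hlen := congrArg List.length hσ
  rw [List.length_take] at hlen
  rwa [List.take_of_length_le (by omega)] at hσ

/-- Prepend an edge to an exact path. -/
theorem cons_exact {e : Edge d} (he : e.OK) {x : FA d} {t : State d} (ht : t = e.tgt)
    (h : ∃ σ : Path d t, offset d σ = e.pval⁻¹ * x * e.qval) :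
    ∃ σ : Path d e.src, offset d σ = x := by
  subst ht
  obtain ⟨σ, hσ⟩ := h
  exact ⟨.cons e he σ, by simp only [offset, hσ]; group⟩

theorem step_exact (i : Bool) : ∀ (r v : List d.M.A) (q : d.M.Q) (u : V.U), V.hOne u →
    V.st u = .step i q → V.Ex u (pw i r * pw (!i) v) → r ≠ [] →
    (∀ l, d.M.Run q l → d.M.inRow l = r → ∀ w : V.U, V.hOne w → V.st w = .bd (!i) →
      V.Ex w (pw (!i) (v ++ d.M.outRow l)) →
      ∃ σ : Path d (.bd (!i)), offset d σ = pw (!i) (v ++ d.M.outRow l)) →
    ∃ σ : Path d (.step i q), offset d σ = pw i r * pw (!i) v := by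
  intro r
  induction r with
  | nil => intro v q u _ _ _ hr; exact absurd rfl hr
  | cons c r ih =>
    intro v q u hu hst hx hr cont
    obtain ⟨e, he, hsrc, w, hw, h1, -, hex⟩ := V.edge_start hu (by rw [hst]; simp)
    have hy := hex _ hx
    rw [hst] at hsrc
    have hshape := V.shape_of_ex h1 hy
    rw [hw] at hshape
    have goal := fun h => cons_exact (x := pw i (c :: r) * pw (!i) v) he hw h
    rw [hsrc] at goal
    refine goal ?_
    rw [hw]
    cases he with
    | stepMid i' q₀ a b q' ht ha1 ha2 =>
      cases hsrc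
      obtain ⟨z, -, hz⟩ := hshape
      obtain ⟨r', hr', hy'⟩ := succ_word (i := i) (a := a) (u := c :: r) (v := v) (b := b) hz
        (by simp) (by simp only [Edge.pval, qval_eq, mk_emit]; group)
      obtain ⟨rfl, rfl⟩ := List.cons.inj hr'
      rw [hy'] at hy hz ⊢
      have hr0 : r ≠ [] := by
        rintro rfl
        rw [pw_nil, one_mul, toWord_pw] at hz
        simp [par] at hz
      refine ih (v ++ b) q' w h1 hw hy hr0 fun l hl hin w' h1' hw' hx' => ?_
      have hl' : d.M.Run q ((q, c, b, q') :: l) := .cons ht hl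
      have := cont _ hl' (by rw [inRow_cons, hin]) w' h1' hw'
        (by rwa [outRow_cons, ← List.append_assoc])
      rwa [outRow_cons, ← List.append_assoc] at this
    | stepLast i' q₀ b q' ht hacc =>
      cases hsrc
      obtain ⟨r', hr', hy'⟩ := succ_word (i := i) (a := d.M.last) (u := c :: r) (v := v) (b := b)
        (z := (d.M.first, !i)) hshape (by simp) (by simp only [Edge.pval, qval_eq, mk_emit]; group)
      obtain ⟨rfl, rfl⟩ := List.cons.inj hr'
      rw [hy'] at hy hshape ⊢
      have hr0 : r = [] := by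
        by_contra hne
        obtain ⟨z, r', rfl⟩ := List.exists_cons_of_ne_nil hne
        have h := hshape
        simp only [Shape, toWord_two] at h
        simp [par] at h
      subst hr0
      simp only [pw_nil, one_mul] at hy ⊢
      have hl' : d.M.Run q [(q, d.M.last, b, q')] := .cons ht (.done hacc)
      have := cont _ hl' rfl w h1 hw (by simpa [RowMachine.outRow] using hy)
      simpa [RowMachine.outRow] using this
    | flood src p t hst' =>
      have := V.plain_exact h1 (by rw [hw]; trivial) hy
      rwa [hw] at this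
    | floodEnd src p t hst' hL =>
      have := V.plain_exact h1 (by rw [hw]; trivial) hy
      rwa [hw] at this
    | _ => cases hsrc

theorem bd_exact (hG : Good d) (r : List d.M.A) : ∀ (i : Bool) (u : V.U), V.hOne u →
    V.st u = .bd i → V.Ex u (pw i r) → ∃ σ : Path d (.bd i), offset d σ = pw i r := by
  induction r using hG.lawful.wf.induction with
  | _ r ih =>
    intro i u hu hst hx
    obtain ⟨e, he, hsrc, w, hw, h1, -, hex⟩ := V.edge_start hu (by rw [hst]; simp)
    have hy := hex _ hx
    rw [hst] at hsrc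
    have hshape := V.shape_of_ex h1 hy
    rw [hw] at hshape
    have goal := fun h => cons_exact (x := pw i r) he hw h
    rw [hsrc] at goal
    refine goal ?_
    rw [hw]
    cases he with
    | stepFirst i' b q' ht =>
      cases hsrc
      obtain ⟨z, -, hz⟩ := hshape
      have hr : r ≠ [] := by
        rintro rfl
        have := V.shape_of_ex hu hx
        simp [hst, Shape, pw_nil] at this
      obtain ⟨r', hr', hy'⟩ := succ_word (i := i) (a := d.M.first) (u := r) (v := []) (b := b) hz
        hr (by simp only [Edge.pval, qval_eq, mk_emit, pw_nil]; group)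
      subst hr'
      rw [hy'] at hy hz ⊢
      have hr0 : r' ≠ [] := by
        rintro rfl
        rw [pw_nil, one_mul, toWord_pw] at hz
        simp [par] at hz
      refine V.step_exact i r' _ q' w h1 hw hy hr0 fun l hl hin w' h1' hw' hx' => ?_
      have hstep : d.M.Step (d.M.first :: r') (b ++ d.M.outRow l) :=
        ⟨_, .cons ht hl, by rw [inRow_cons, hin], by rw [outRow_cons]⟩
      rw [List.nil_append] at hx' ⊢
      exact ih _ hstep (!i) w' h1' hw' hx'
    | haltFirst i' q' hq =>
      have := V.plain_exact h1 (by rw [hw]; trivial) hy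
      rwa [hw] at this
    | flood src p t hst' =>
      have := V.plain_exact h1 (by rw [hw]; trivial) hy
      rwa [hw] at this
    | floodEnd src p t hst' hL =>
      have := V.plain_exact h1 (by rw [hw]; trivial) hy
      rwa [hw] at this
    | _ => cases hsrc

/-- Any in-shape exact offset that the rules allow has a path. -/
theorem exact_path (hG : Good d) {u : V.U} (hu : V.hOne u) (hg : V.st u ≠ .guess) {x : FA d}
    (hx : V.Ex u x) : ∃ σ : Path d (V.st u), offset d σ = x := by
  have hshape := V.shape_of_ex hu hx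
  cases hs : V.st u with
  | guess => exact absurd hs hg
  | fin => exact hs ▸ V.plain_exact hu (by rw [hs]; trivial) hx
  | halt i q => exact hs ▸ V.plain_exact hu (by rw [hs]; trivial) hx
  | scan p s => exact hs ▸ V.plain_exact hu (by rw [hs]; trivial) hx
  | bd i =>
    rw [hs] at hshape
    by_cases h : ∃ r, x = pw i r
    · obtain ⟨r, rfl⟩ := h
      exact V.bd_exact hG r i u hu hs hx
    · exact bd_exists hshape fun r hr => h ⟨r, hr⟩
  | step i q =>
    rw [hs] at hshape
    by_cases h : ∃ r v, x = pw i r * pw (!i) v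
    · obtain ⟨r, v, rfl⟩ := h
      have hr : r ≠ [] := by
        rintro rfl
        obtain ⟨a, -, ha⟩ := hshape
        rw [pw_nil, one_mul, toWord_pw] at ha
        simp [par] at ha
      refine V.step_exact i r v q u hu hs hx hr fun l hl hin w h1 hw hwx => ?_
      exact V.bd_exact hG _ (!i) w h1 hw hwx
    · exact step_exists hshape fun r v hr => h ⟨r, v, hr⟩

/-- At a legit offset the two inner predicates are tied as certified. -/
theorem legit_tie : ∀ (L : List (Fin d.n)) (b : Bool) (u : V.U), V.st u = .guess → V.hOne u →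
    V.cl u → V.tag u = false → V.Ex u (legit L b) → ∀ k,
      if b then (V.gOne (V.gA k u) ↔ V.kOne (V.gA ((L.reverse.map d.gen).prod⁻¹ * k) u))
      else ¬ (V.gOne (V.gA k u) ∧ V.kOne (V.gA ((L.reverse.map d.gen).prod⁻¹ * k) u)) := by
  intro L
  induction L with
  | nil =>
    intro b u _ hu hc ht hx k
    have hl : legit [] b = cval d b := rfl
    have h0 : V.fr (V.hA (lT (cval d b)⁻¹) (V.gA k u)) = none := by
      rw [← V.comm_gh, V.fr_g, ← hl]; exact hx
    have hc' := (V.cl_g k u).2 hc
    have ht' : V.tag (V.gA k u) = false := by rw [V.tag_g, ht]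
    have hu' := (V.hOne_g k u).2 hu
    simp only [List.reverse_nil, List.map_nil, List.prod_nil, inv_one, one_mul]
    cases b
    · exact V.rule2 _ hc' hu' ht' h0
    · exact V.rule1' _ hc' hu' ht' h0
  | cons j L ih =>
    intro b u hs hu hc ht hx k
    let e : Edge d := ⟨.guess, .guess, [((d.M.letter j, false), false)], [], .letter j⟩
    have he : e.OK := .letter j
    have hv : V.st u = e.tgt := hs
    let l : FA d := FreeGroup.mk [((d.M.letter j, false), true)]
    have het : eT e = lT l⁻¹ := by
      simp [eT, lT, e, l, Edge.pval, qval_eq, mk_pos_nil, inv_mk, FreeGroup.invRev]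
    let u₁ := V.hA (eT e) (V.edge e u)
    have hs₁ : V.st u₁ = .guess := by rw [V.st_h, V.edge_st e u he hv]
    have hu₁ : V.hOne u₁ := by
      show V.hOne (V.hA (eT e) _)
      rw [V.edge_h e u _ he hv, V.edge_hOne e _ he (by rw [V.st_h, hv]), V.hA_inv]
      exact hu
    have hc₁ : V.cl u₁ := (V.cl_h _ _).2 ((V.edge_cl_letter e j u he rfl hv).2 hc)
    have ht₁ : V.tag u₁ = false := by rw [V.tag_h, V.edge_tag e u he hv, ht]
    have hx₁ : V.Ex u₁ (legit L b) := by
      show V.fr (V.hA _ (V.hA (eT e) _)) = none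
      rw [← V.hA_mul, het, ← lT_mul, ← mul_inv_rev, show l * legit L b = legit (j :: L) b from
        (legit_cons j L b).symm, V.edge_h e u _ he hv, V.edge_fr e _ he (by rw [V.st_h, hv])]
      exact hx
    have hg : ∀ m, V.gOne (V.gA m u₁) ↔ V.gOne (V.gA m u) := fun m => by
      rw [V.comm_gh, V.gOne_h, V.edge_g e u m he hv, V.edge_gOne e _ he (by rw [V.st_g, hv])]
    have hk : ∀ m, V.kOne (V.gA m u₁) ↔ V.kOne (V.gA ((d.gen j)⁻¹ * m) u) := fun m => by
      rw [V.comm_gh, V.kOne_h, V.edge_g e u m he hv,
        V.edge_k_letter e j _ he rfl (by rw [V.st_g, hv]), V.gA_mul]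
    have := ih b u₁ hs₁ hu₁ hc₁ ht₁ hx₁ k
    rw [hg, hk] at this
    simpa [mul_assoc] using this

end VSpace

end Vale.Agent.P193.Core.Empty
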