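import Vale.Agent.P193.Full.Core.Empty.Sample

/-! Whatever finitely many observations say at a virtual point, they say at a real point: the
semantic half of section (ii) of note 1286. By induction on the depth of the observations; only
depth zero looks at rows and certificates. -/

namespace Vale.Agent.P193.Core.Empty

open FreeGroup

set_option linter.unusedSectionVars false

variable {d : Data} [DecidableEq d.M.A]

/-- The basic observations an observation makes at its point. -/
def Ob.tops : Ob d → List (Atom d)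
  | .top => []
  | .atom a => [a]
  | .not O => tops O
  | .and O O' => tops O ++ tops O'
  | .sub _ _ => []
  | .pop _ t _ => [.h t]

/-- Finitely many letters decide finitely many fronts. -/
theorem exists_fronts (F : List (Outer d)) :
    ∃ N, ∀ (V W : VSpace d) (u : V.U) (x : W.U), ZEq N u x →
      ∀ t ∈ F, V.fr (V.hA t u) = W.fr (W.hA t x) := by
  induction F with
  | nil => exact ⟨0, fun _ _ _ _ _ t ht => by simp at ht⟩
  | cons t F ih =>
    obtain ⟨N, hN⟩ := ih
    obtain ⟨K, hK⟩ := ZEq.exists_front t
    refine ⟨max N K, fun V W u x h s hs => ?_⟩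
    rcases List.mem_cons.1 hs with rfl | hs
    · exact hK V W u x _ (le_max_right _ _) h
    · exact hN V W u x (h.mono (le_max_left _ _)) s hs

/-- Finitely many basic observations at a virtual point hold at a sample. -/
theorem atom_base (hG : Good d) {P : VSpace d} (S : Samples P) (V : VSpace d) (u : V.U)
    (T : List (Atom d)) :
    ∃ (s : State d) (σ : Path d s) (g : Inner d) (h : Outer d), s = V.st u ∧
      ∀ a ∈ T, V.AHolds a u ↔ P.AHolds a (S.pt σ (V.tag u) g h) := by
  classical
  let E : List (Outer d) := T.filterMap fun a => match a with | .h t => some t | _ => none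
  let F : List (Outer d) := T.filterMap fun a => match a with | .front t _ => some t | _ => none
  let G : List (Inner d) := T.filterMap fun a => match a with | .g k => some k | _ => none
  let K : List (Inner d) := T.filterMap fun a => match a with | .k k => some k | _ => none
  have main : ∀ (σ : Path d (V.st u)) (g : Inner d) (h : Outer d),
      (V.cl u ↔ V.st u = .guess ∧ clean d σ) →
      (∀ t ∈ F, V.fr (V.hA t u) = P.fr (P.hA t (S.pt σ (V.tag u) g h))) →
      (∀ t ∈ E, V.hOne (V.hA t u) ↔ h = t) →
      (∀ k ∈ G, V.gOne (V.gA k u) ↔ V.tag u = false ∧ g = k) →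
      (∀ k ∈ K, V.kOne (V.gA k u) ↔
        V.tag u = false ∧ V.st u = .guess ∧ guessVal d σ * g = k) →
      ∃ (s : State d) (σ : Path d s) (g : Inner d) (h : Outer d), s = V.st u ∧
        ∀ a ∈ T, V.AHolds a u ↔ P.AHolds a (S.pt σ (V.tag u) g h) := by
    intro σ g h hc hf he hg hk
    refine ⟨_, σ, g, h, rfl, fun a ha => ?_⟩
    cases a with
    | st s => simp only [VSpace.AHolds, S.st_mk]
    | tag => simp only [VSpace.AHolds, S.tag_mk]
    | cl => simp only [VSpace.AHolds, S.cl_mk]; exact hc
    | front t o =>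
      simp only [VSpace.AHolds]
      rw [hf t (List.mem_filterMap.2 ⟨_, ha, rfl⟩)]
    | h t =>
      simp only [VSpace.AHolds, S.hA_mk, S.hOne_mk, mul_inv_eq_one]
      exact he t (List.mem_filterMap.2 ⟨_, ha, rfl⟩)
    | g k =>
      simp only [VSpace.AHolds, S.gA_mk, S.gOne_mk, mul_inv_eq_one]
      exact hg k (List.mem_filterMap.2 ⟨_, ha, rfl⟩)
    | k k =>
      simp only [VSpace.AHolds, S.gA_mk, S.kOne_mk, ← mul_assoc, mul_inv_eq_one]
      exact hk k (List.mem_filterMap.2 ⟨_, ha, rfl⟩)
  by_cases hit : ∃ t ∈ E, V.hOne (V.hA t u)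
  · obtain ⟨t, -, ht⟩ := hit
    obtain ⟨N, hN⟩ := exists_fronts (F.map (· * t⁻¹))
    obtain ⟨σ, g, hc, hz, hg, hk⟩ := base_hOne hG V ht N G K
    simp only [V.cl_h, V.tag_h, V.st_h, V.comm_gh, V.gOne_h, V.kOne_h] at hc hg hk
    have hst : V.st (V.hA t u) = V.st u := V.st_h t u
    have key : ∀ {s : State d} (σ : Path d s), s = V.st u →
        (V.cl u ↔ V.st u = .guess ∧ clean d σ) → (offset d σ).toWord.take N = V.zp N (V.hA t u) →
        (∀ k ∈ K, V.kOne (V.gA k u) ↔
          V.tag u = false ∧ V.st u = .guess ∧ guessVal d σ * g = k) →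
        ∃ (s : State d) (σ : Path d s) (g : Inner d) (h : Outer d), s = V.st u ∧
          ∀ a ∈ T, V.AHolds a u ↔ P.AHolds a (S.pt σ (V.tag u) g h) := by
      intro s σ hs hc hz hk
      subst hs
      refine main σ g t hc (fun t' ht' => ?_) (fun t' _ => ?_) hg hk
      · have := hN V P (V.hA t u) (S.pt σ (V.tag u) g 1) (by
          rw [ZEq, S.zp_mk, ← hz]; simp) _ (List.mem_map.2 ⟨t', ht', rfl⟩)
        rw [← V.hA_mul, inv_mul_cancel_right, S.hA_mk] at this
        rw [this, S.hA_mk, one_mul, mul_inv_rev, inv_inv]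
      · constructor
        · intro h'
          have := V.hdisj hG ht (t := t' * t⁻¹) (by rwa [← V.hA_mul, inv_mul_cancel_right])
          exact (mul_inv_eq_one.1 this).symm
        · rintro rfl
          exact ht
    exact key σ hst hc hz hk
  · obtain ⟨N, hN⟩ := exists_fronts F
    obtain ⟨g, hg⟩ := exists_choice G (fun k => V.gOne (V.gA k u))
      fun k k' h h' => V.gOne_unique h h'
    obtain ⟨kk, hkk⟩ := exists_choice K (fun k => V.kOne (V.gA k u))
      fun k k' h h' => V.kOne_unique h h'
    obtain ⟨σ, hc, hm⟩ : ∃ σ : Path d (V.st u), (V.cl u ↔ V.st u = .guess ∧ clean d σ) ∧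
        (V.st u = .guess → guessVal d σ = kk * g⁻¹) := by
      by_cases hs : V.st u = .guess
      · rw [hs]
        by_cases hcl : V.cl u
        · obtain ⟨σ, h1, -, h3, -⟩ := nonlegit_exists hG (1 : FA d) (fun L b e => by
            have := congrArg FreeGroup.toWord e
            rw [toWord_legit] at this
            simp [par, legitRow] at this) (kk * g⁻¹) 0
          exact ⟨σ, iff_of_true hcl ⟨rfl, h1⟩, fun _ => h3⟩
        · obtain ⟨σ, h1, -, h3, -⟩ := junk_exists hG (1 : FA d) (kk * g⁻¹) 0
          exact ⟨σ, iff_of_false hcl fun h => h1 h.2, fun _ => h3⟩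
      · obtain ⟨σ⟩ := V.live u
        exact ⟨σ, iff_of_false (fun h => hs (V.cl_guess u h)) fun h => hs h.1,
          fun h => absurd h hs⟩
    obtain ⟨h₂, hh₂⟩ := exists_notMem_FA (d := d) ((E.map fun t => t.2.2).toFinset)
    let w := FreeGroup.mk (V.zp N u)
    refine main σ g (1, offset d σ * h₂ * w⁻¹, h₂) hc (fun t ht => hN V P u _ ?_ t ht)
      (fun t ht => iff_of_false (fun h => hit ⟨t, ht, h⟩) fun e => hh₂ ?_) (fun k hk => ?_)
      fun k hk => ?_
    · rw [ZEq, S.zp_mk, show (offset d σ * h₂ * w⁻¹)⁻¹ * offset d σ * h₂ = w by group,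
        toWord_mk_of_reduced (V.zp_reduced N u), List.take_of_length_le (V.zp_length N u)]
    · exact List.mem_toFinset.2 (List.mem_map.2 ⟨t, ht, by rw [← e]⟩)
    · constructor
      · intro h
        have ht := V.gOne_tag _ h
        rw [V.tag_g] at ht
        exact ⟨ht, (hg k hk).1 h⟩
      · exact fun h => (hg k hk).2 h.2
    · constructor
      · intro h
        obtain ⟨ht, hs⟩ := V.kOne_tag _ h
        rw [V.tag_g] at ht
        rw [V.st_g] at hs
        exact ⟨ht, hs, by rw [hm hs, inv_mul_cancel_right]; exact (hkk k hk).1 h⟩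
      · rintro ⟨-, hs, h⟩
        rw [hm hs, inv_mul_cancel_right] at h
        exact (hkk k hk).2 h

/-- Observations without nesting only see basic observations. -/
theorem flat_zero {V W : VSpace d} {u : V.U} {x : W.U} : ∀ O : Ob d, O.depth = 0 →
    (∀ a ∈ O.tops, V.AHolds a u ↔ W.AHolds a x) → (V.Holds O u ↔ W.Holds O x) := by
  intro O
  induction O with
  | top => exact fun _ _ => Iff.rfl
  | atom a => exact fun _ h => h a (List.mem_singleton_self a)
  | not O ih => exact fun hd h => not_congr (ih hd h)
  | and O O' ih ih' =>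
    intro hd h
    simp only [Ob.depth] at hd
    exact and_congr (ih (by omega) fun a ha => h a (List.mem_append_left _ ha))
      (ih' (by omega) fun a ha => h a (List.mem_append_right _ ha))
  | sub e O _ => intro hd; simp [Ob.depth] at hd
  | pop K t O _ => intro hd; simp [Ob.depth] at hd

/-- Over the final state, away from constructors, only basic observations count. -/
theorem flat_fin {V W : VSpace d} {u : V.U} {x : W.U} (hu : V.st u = .fin) (hx : W.st x = .fin) :
    ∀ O : Ob d,
      (∀ K t, Atom.h t ∈ O.tops → ∀ v, V.Dom K v → V.hA t u ≠ V.push K v) →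
      (∀ K t, Atom.h t ∈ O.tops → ∀ v, W.Dom K v → W.hA t x ≠ W.push K v) →
      (∀ a ∈ O.tops, V.AHolds a u ↔ W.AHolds a x) → (V.Holds O u ↔ W.Holds O x) := by
  intro O
  induction O with
  | top => exact fun _ _ _ => Iff.rfl
  | atom a => exact fun _ _ h => h a (List.mem_singleton_self a)
  | not O ih => exact fun h1 h2 h => not_congr (ih h1 h2 h)
  | and O O' ih ih' =>
    intro h1 h2 h
    exact and_congr
      (ih (fun K t m => h1 K t (List.mem_append_left _ m))
        (fun K t m => h2 K t (List.mem_append_left _ m))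
        fun a ha => h a (List.mem_append_left _ ha))
      (ih' (fun K t m => h1 K t (List.mem_append_right _ m))
        (fun K t m => h2 K t (List.mem_append_right _ m))
        fun a ha => h a (List.mem_append_right _ ha))
  | sub e O _ =>
    intro _ _ _
    refine iff_of_false ?_ ?_ <;> rintro ⟨v, he, hv, heq, -⟩
    · rw [← heq, V.edge_st e v he hv] at hu
      exact Path.src_ne_fin he hu
    · rw [← heq, W.edge_st e v he hv] at hx
      exact Path.src_ne_fin he hx
  | pop K t O _ =>
    intro h1 h2 _
    refine iff_of_false ?_ ?_ <;> rintro ⟨v, hd, heq, -⟩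
    · exact h1 K t (List.mem_singleton_self _) v hd heq
    · exact h2 K t (List.mem_singleton_self _) v hd heq

/-- Observations saying that a constructor applies. -/
def Ctor.domObs : Ctor d → List (Ob d)
  | .theta _ => []
  | .omC => [.atom .tag]
  | .omD => [.atom .tag]
  | .omK => [.atom .tag, .atom (.st .guess)]
  | .tM => [.atom .tag, .atom (.st .fin), .atom (.h 1)]

theorem dom_transfer {V W : VSpace d} {u : V.U} {x : W.U} (K : Ctor d)
    (h : ∀ O ∈ K.domObs, V.Holds O u ↔ W.Holds O x) (hd : V.Dom K u) : W.Dom K x := by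
  cases K with
  | theta r => trivial
  | omC =>
    simp only [Ctor.domObs, List.forall_mem_cons] at h
    exact h.1.1 hd
  | omD =>
    simp only [Ctor.domObs, List.forall_mem_cons] at h
    exact Bool.eq_false_iff.2 fun e => absurd (h.1.2 e) (by simp [VSpace.Holds, VSpace.AHolds,
      show V.tag u = false from hd])
  | omK =>
    simp only [Ctor.domObs, List.forall_mem_cons] at h
    exact ⟨Bool.eq_false_iff.2 fun e => absurd (h.1.2 e) (by simp [VSpace.Holds, VSpace.AHolds,
      hd.1]), h.2.1.1 hd.2⟩
  | tM =>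
    simp only [Ctor.domObs, List.forall_mem_cons] at h
    refine ⟨Bool.eq_false_iff.2 fun e => absurd (h.1.2 e) (by simp [VSpace.Holds, VSpace.AHolds,
      hd.1]), h.2.1.1 hd.2.1, ?_⟩
    have := h.2.2.1.1 (show V.hOne (V.hA 1 u) by rw [V.hA_one]; exact hd.2.2)
    rwa [show W.Holds (Ob.atom (Atom.h 1)) x = W.hOne (W.hA 1 x) from rfl, W.hA_one] at this

theorem Ctor.domObs_depth (K : Ctor d) : ∀ O ∈ K.domObs, O.depth = 0 := by
  cases K <;> simp [Ctor.domObs, Ob.depth]

/-- Finitely many observations at a virtual point hold at one real point. -/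
theorem realise_list (hG : Good d) {P : VSpace d} (S : Samples P) (V : VSpace d) :
    ∀ (n : ℕ) (u : V.U) (L : List (Ob d)), (∀ O ∈ L, O.depth ≤ n) →
      ∃ x : P.U, ∀ O ∈ L, V.Holds O u ↔ P.Holds O x := by
  classical
  intro n
  induction n with
  | zero =>
    intro u L hL
    obtain ⟨s, σ, g, h, -, hx⟩ := atom_base hG S V u (L.flatMap Ob.tops)
    exact ⟨_, fun O hO => flat_zero O (Nat.le_zero.1 (hL O hO)) fun a ha =>
      hx a (List.mem_flatMap.2 ⟨O, hO, ha⟩)⟩
  | succ n ih =>
    intro u L hL
    by_cases hfin : V.st u = .fin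
    swap
    · obtain ⟨e, he, -, v, hv, rfl⟩ := V.edge_decomp u hfin
      choose pre hd hpre using fun O => exists_preEdge e he O
      obtain ⟨x, hx⟩ := ih v (.atom (.st e.tgt) :: L.map pre) fun O hO => by
        rcases List.mem_cons.1 hO with rfl | hO
        · exact Nat.zero_le _
        · obtain ⟨O', hO', rfl⟩ := List.mem_map.1 hO
          have := hL O' hO'; have := hd O'; omega
      have hxs : P.st x = e.tgt := (hx _ List.mem_cons_self).1 hv
      exact ⟨P.edge e x, fun O hO => ((hpre O V v hv).symm.trans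
        (hx _ (List.mem_cons_of_mem _ (List.mem_map.2 ⟨O, hO, rfl⟩)))).trans (hpre O P x hxs)⟩
    by_cases hcons : ∃ t K v, Atom.h t ∈ L.flatMap Ob.tops ∧ V.Dom K v ∧ V.hA t u = V.push K v
    · obtain ⟨t, K, v, -, hdom, heq⟩ := hcons
      choose preH hdH hpreH using fun O => exists_preH (t⁻¹) O
      choose pre hd hpre using fun O => exists_prePush hG K O
      obtain ⟨x, hx⟩ := ih v (K.domObs ++ L.map fun O => pre (preH O)) fun O hO => by
        rcases List.mem_append.1 hO with hO | hO
        · rw [K.domObs_depth O hO]; exact Nat.zero_le _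
        · obtain ⟨O', hO', rfl⟩ := List.mem_map.1 hO
          have := hL O' hO'; have := hd (preH O'); have := hdH O'; omega
      have hxd : P.Dom K x :=
        dom_transfer K (fun O hO => hx O (List.mem_append_left _ hO)) hdom
      refine ⟨P.hA t⁻¹ (P.push K x), fun O hO => ?_⟩
      have h3 := hx _ (List.mem_append_right _ (List.mem_map.2 ⟨O, hO, rfl⟩))
      rw [hpre _ V v hdom, hpre _ P x hxd, ← heq, hpreH, hpreH] at h3
      dsimp only at h3
      rwa [V.hA_inv] at h3
    · push Not at hcons
      obtain ⟨s, σ, g, h, rfl, hx⟩ := atom_base hG S V u (L.flatMap Ob.tops)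
      refine ⟨_, fun O hO => flat_fin hfin (by rw [S.st_mk, hfin]) O
        (fun K t ht v hd => hcons t K v (List.mem_flatMap.2 ⟨O, hO, ht⟩) hd)
        (fun K t ht v hd heq => ?_) fun a ha => hx a (List.mem_flatMap.2 ⟨O, hO, ha⟩)⟩
      have htm := List.mem_flatMap.2 ⟨O, hO, ht⟩
      have hone : P.hOne (P.hA t (S.pt σ (V.tag u) g h)) := heq ▸ P.push_hOne K v
      have hvu : V.hOne (V.hA t u) := (hx _ htm).2 hone
      by_cases htag : V.tag u = true
      · rcases V.finC _ (by rw [V.st_h, hfin]) hvu (by rw [V.tag_h, htag]) with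
          ⟨w, h1, h2⟩ | ⟨w, h1, h2, h3, h4⟩
        · exact hcons t .omC w htm h1 h2
        · exact hcons t .tM w htm ⟨h1, h2, h3⟩ h4
      · rw [S.hA_mk, S.hOne_mk] at hone
        rw [S.hA_mk, hone] at heq
        simp only [Bool.not_eq_true] at htag
        exact S.no_push K v σ g hd (htag ▸ heq).symm

/-- An observation true at a virtual point is true at a real point. -/
theorem realise (hG : Good d) {P : VSpace d} (S : Samples P) (V : VSpace d) (u : V.U) (O : Ob d)
    (h : V.Holds O u) : ∃ x : P.U, P.Holds O x := by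
  obtain ⟨x, hx⟩ := realise_list hG S V O.depth u [O] fun O' hO' => by
    rw [List.mem_singleton.1 hO']
  exact ⟨x, (hx O (List.mem_singleton_self O)).1 h⟩

end Vale.Agent.P193.Core.Empty
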