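import Vale.Agent.P193.Full.Core.Empty.PointSpace
import Vale.Agent.P193.Full.Core.Empty.Realise

/-! The points of the core model supply the samples that realisation needs. -/

namespace Vale.Agent.P193.Core.Empty

open FreeGroup

set_option linter.unusedSectionVars false

variable {d : Data} [DecidableEq d.M.A]

/-- The simplest stack of a tag. -/
def stack0 : (b : Bool) → Wd d b
  | true => .tpush .base
  | false => .base

/-- Samples among the points. -/
noncomputable def pointSamples (hG : Good d) : Samples (pointSpace hG) where
  pt {s} σ b g h := (⟨s, σ, b, stack0 b, g, h⟩ : Point d)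
  st_mk _ _ _ _ := rfl
  tag_mk _ _ _ _ := rfl
  cl_mk _ _ _ _ := Iff.rfl
  fr_mk _ _ _ _ := rfl
  hOne_mk _ _ _ _ := Iff.rfl
  gOne_mk _ _ _ _ := Iff.rfl
  kOne_mk _ _ _ _ := Iff.rfl
  hA_mk _ _ _ _ _ := rfl
  gA_mk _ _ _ _ _ := rfl
  no_push := by
    intro K v s σ g hd heq
    obtain ⟨st, τ, b, w, g', h⟩ := v
    cases K with
    | theta r =>
      simp only [pointSpace, pPush, Point.mk.injEq] at heq
      obtain ⟨rfl, -, -, hw, -⟩ := heq
      simp [stack0] at hw
    | omC =>
      have := congrArg Point.tag heq
      cases (show b = true from hd)
      simp [pointSpace, pPush] at this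
    | tM =>
      have := congrArg Point.tag heq
      cases (show b = false from hd.1)
      simp [pointSpace, pPush] at this
    | omD =>
      cases (show b = false from hd)
      simp only [pointSpace, pPush, Point.mk.injEq] at heq
      obtain ⟨rfl, -, -, hw, -⟩ := heq
      simp [stack0] at hw
    | omK =>
      cases (show b = false from hd.1)
      cases (show st = .guess from hd.2)
      simp only [pointSpace, pPush, Point.mk.injEq] at heq
      obtain ⟨rfl, -, -, hw, -⟩ := heq
      simp [stack0] at hw

/-- An observation true at a virtual point is true at a point of the core model. -/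
theorem realise_point (hG : Good d) (V : VSpace d) (u : V.U) (O : Ob d) (h : V.Holds O u) :
    ∃ x : Point d, (pointSpace hG).Holds O x :=
  realise hG (pointSamples hG) V u O h

/-- An observation false at every point of the core model is false at every virtual point. -/
theorem not_holds_of_point (hG : Good d) (O : Ob d)
    (h : ∀ x : Point d, ¬ (pointSpace hG).Holds O x) (V : VSpace d) (u : V.U) : ¬ V.Holds O u :=
  fun hu => let ⟨x, hx⟩ := realise_point hG V u O hu; h x hx

end Vale.Agent.P193.Core.Empty
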