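import Vale.Agent.P193.Full.Core.Junk
import Vale.Agent.P193.Full.Core.Facts.Defs

/-! Virtual points: a type with the base predicates and the named partial maps of the core model,
subject to finitely many kinds of axioms, each true in `Point d`. Everything the predicates and
maps can express at a virtual point will be shown to happen at a real point (section (ii) of team
note 1286). -/

namespace Vale.Agent.P193.Core.Empty

open FreeGroup

set_option linter.unusedSectionVars false

variable {d : Data}

/-- The inverse of a signed letter. -/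
def flipS (c : Ltr d × Bool) : Ltr d × Bool := (c.1, !c.2)

/-- A signed letter as an element. -/
def sl (c : Ltr d × Bool) : FA d := mk [c]

/-- Left multiplication of the offset by an element, as an outer translation. -/
def lT (s : FA d) : Outer d := (1, s, 1)

/-- Right multiplication of the offset by an inverted element, as an outer translation. -/
def rT (s : FA d) : Outer d := (1, 1, s)

/-- What the first letter of the offset can be at a state, over trivial outer coordinate. -/
def FrShape : State d → Option (Ltr d × Bool) → Prop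
  | .guess, _ => True
  | .bd i, o => o = some ((d.M.first, i), true)
  | .step i _, o => ∃ a, a ≠ d.M.first ∧ o = some ((a, i), true)
  | .halt i _, o => ∃ a, a ≠ d.M.first ∧ o = some ((a, i), true)
  | .fin, o => o = none
  | .scan _ s, o => ∃ s', Follows d s s' ∧ o = some s'

/-- The constructors of stacks. -/
inductive Ctor (d : Data) where
  | theta (r : Inner d)
  | omC
  | omD
  | omK
  | tM

/-- The tag a constructor produces. -/
def Ctor.tag : Ctor d → Bool
  | .omC => true
  | .tM => true
  | _ => false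

/-- The outer translation undoing an edge. -/
def eT (e : Edge d) : Outer d := (1, e.pval, e.qval)

/-- Virtual points. -/
structure VSpace (d : Data) where
  U : Type
  st : U → State d
  tag : U → Bool
  cl : U → Prop
  fr : U → Option (Ltr d × Bool)
  hOne : U → Prop
  gOne : U → Prop
  kOne : U → Prop
  hA : Outer d →* Equiv.Perm U
  gA : Inner d →* Equiv.Perm U
  edge : Edge d → U → U
  uM : Fin 3 → Equiv.Perm U
  push : Ctor d → U → U
  -- translations
  comm_gh : ∀ t k u, gA k (hA t u) = hA t (gA k u)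
  st_h : ∀ t u, st (hA t u) = st u
  tag_h : ∀ t u, tag (hA t u) = tag u
  cl_h : ∀ t u, cl (hA t u) ↔ cl u
  gOne_h : ∀ t u, gOne (hA t u) ↔ gOne u
  kOne_h : ∀ t u, kOne (hA t u) ↔ kOne u
  st_g : ∀ k u, st (gA k u) = st u
  tag_g : ∀ k u, tag (gA k u) = tag u
  cl_g : ∀ k u, cl (gA k u) ↔ cl u
  fr_g : ∀ k u, fr (gA k u) = fr u
  hOne_g : ∀ k u, hOne (gA k u) ↔ hOne u
  -- the tree of offsets
  fr_k : ∀ k u, fr (hA (k, 1, 1) u) = fr u
  left_ne : ∀ c u, fr u ≠ some (flipS c) → fr (hA (lT (sl c)) u) = some c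
  left_eq : ∀ c u, fr u = some (flipS c) → fr (hA (lT (sl c)) u) ≠ some c
  right_eq : ∀ c u, fr u ≠ none → fr (hA (rT (sl c)) u) ≠ none → fr (hA (rT (sl c)) u) = fr u
  conj_none : ∀ s u, fr u = none → fr (hA (1, s, s) u) = none
  -- states and predicates
  cl_guess : ∀ u, cl u → st u = .guess
  gOne_tag : ∀ u, gOne u → tag u = false
  kOne_tag : ∀ u, kOne u → tag u = false ∧ st u = .guess
  gdisj : ∀ k u, gOne u → gOne (gA k u) → k = 1
  shape : ∀ u, hOne u → FrShape (st u) (fr u)
  live : ∀ u, Nonempty (Path d (st u))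
  -- edges
  edge_decomp : ∀ u, st u ≠ .fin →
    ∃ e : Edge d, e.OK ∧ e.src = st u ∧ ∃ v, st v = e.tgt ∧ edge e v = u
  edge_inj : ∀ e e' v v', e.OK → e'.OK → st v = e.tgt → st v' = e'.tgt →
    edge e v = edge e' v' → e = e' ∧ v = v'
  edge_st : ∀ e v, e.OK → st v = e.tgt → st (edge e v) = e.src
  edge_tag : ∀ e v, e.OK → st v = e.tgt → tag (edge e v) = tag v
  edge_fr : ∀ e v, e.OK → st v = e.tgt → fr (edge e v) = fr v
  edge_gOne : ∀ e v, e.OK → st v = e.tgt → (gOne (edge e v) ↔ gOne v)
  edge_h : ∀ e v t, e.OK → st v = e.tgt → hA t (edge e v) = edge e (hA t v)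
  edge_g : ∀ e v k, e.OK → st v = e.tgt → gA k (edge e v) = edge e (gA k v)
  edge_hOne : ∀ e v, e.OK → st v = e.tgt → (hOne (edge e v) ↔ hOne (hA (eT e)⁻¹ v))
  edge_cl_letter : ∀ e i v, e.OK → e.kind = .letter i → st v = e.tgt → (cl (edge e v) ↔ cl v)
  edge_cl_junk : ∀ e v, e.OK → e.kind = .junk → st v = e.tgt → ¬ cl (edge e v)
  edge_cl_other : ∀ e v, e.OK → e.kind = .other → st v = e.tgt →
    (cl (edge e v) ↔ e.src = .guess)
  edge_k_letter : ∀ e i v, e.OK → e.kind = .letter i → st v = e.tgt →
    (kOne (edge e v) ↔ kOne (gA (d.gen i)⁻¹ v))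
  edge_k_other : ∀ e v, e.OK → (∀ i, e.kind ≠ .letter i) → st v = e.tgt →
    (kOne (edge e v) ↔ e.src = .guess ∧ gOne v)
  -- the guessed value
  uM_id : ∀ j u, ¬ (st u = .guess ∧ tag u = true) → uM j u = u
  uM_st : ∀ j u, st (uM j u) = st u
  uM_tag : ∀ j u, tag (uM j u) = tag u
  uM_cl : ∀ j u, cl (uM j u) ↔ cl u
  uM_fr : ∀ j u, fr (uM j u) = fr u
  uM_hOne : ∀ j u, hOne (uM j u) ↔ hOne u
  uM_h : ∀ j t u, hA t (uM j u) = uM j (hA t u)
  uM_letter : ∀ j e i v, e.OK → e.kind = .letter i → st v = e.tgt → tag v = true →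
    uM j (edge e v) = edge e (uM j (gA (Facts.proj j (d.gen i))⁻¹ v))
  uM_other : ∀ j e v, e.OK → (∀ i, e.kind ≠ .letter i) → st v = e.tgt → uM j (edge e v) = edge e v
  -- pushes
  push_st : ∀ K v, st (push K v) = .fin
  push_tag : ∀ K v, tag (push K v) = K.tag
  push_hOne : ∀ K v, hOne (push K v)
  theta_r : ∀ r k v, gA k (push (.theta r) v) = push (.theta (r * k⁻¹)) v
  theta_emb : ∀ r t v, push (.theta r) (hA t v) = push (.theta ((toInner d t)⁻¹ * r)) v
  theta_coset : ∀ r r' v v', push (.theta r) v = push (.theta r') v' →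
    r' * r⁻¹ ∈ (toInner d).range
  theta_inj : ∀ v v', push (.theta 1) v = push (.theta 1) v' → v = v'
  omC_inj : ∀ v v', tag v = true → tag v' = true → push .omC v = push .omC v' → v = v'
  omD_inj : ∀ v v', tag v = false → tag v' = false → push .omD v = push .omD v' → v = v'
  omK_inj : ∀ v v', tag v = false → st v = .guess → tag v' = false → st v' = .guess →
    push .omK v = push .omK v' → v = v'
  tM_inj : ∀ v v', tag v = false → st v = .fin → hOne v → tag v' = false → st v' = .fin →
    hOne v' → push .tM v = push .tM v' → v = v'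
  omC_g : ∀ k v, tag v = true → gA k (push .omC v) = push .omC (gA k v)
  omD_g : ∀ k v, tag v = false → gA k (push .omD v) = push .omD (gA k v)
  omK_g : ∀ k v, tag v = false → st v = .guess → gA k (push .omK v) = push .omK (gA k v)
  tM_g : ∀ k v, tag v = false → st v = .fin → hOne v →
    gA k (push .tM v) = push .tM (gA k v)
  theta_gOne : ∀ v, gOne (push (.theta 1) v) ↔ hOne v
  theta_gOne_range : ∀ r v, gOne (push (.theta r) v) → r ∈ (toInner d).range
  omD_gOne : ∀ v, tag v = false → (gOne (push .omD v) ↔ gOne v)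
  omK_gOne : ∀ v, tag v = false → st v = .guess → (gOne (push .omK v) ↔ kOne v)
  theta_omD : ∀ r v v', tag v' = false → push (.theta r) v ≠ push .omD v'
  theta_omK : ∀ r v v', tag v' = false → st v' = .guess → push (.theta r) v ≠ push .omK v'
  omD_omK : ∀ v v', tag v = false → tag v' = false → st v' = .guess → push .omD v ≠ push .omK v'
  omC_tM : ∀ v v', tag v = true → tag v' = false → st v' = .fin → hOne v' →
    push .omC v ≠ push .tM v'
  finC : ∀ u, st u = .fin → hOne u → tag u = true →
    (∃ v, tag v = true ∧ u = push .omC v) ∨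
      ∃ v, tag v = false ∧ st v = .fin ∧ hOne v ∧ u = push .tM v
  -- the three rules
  rule1 : ∀ j u, cl u → hOne u → tag u = true →
    fr (hA (lT ((cval d true)⁻¹)) u) = none → uM j u = u
  rule1' : ∀ u, cl u → hOne u → tag u = false →
    fr (hA (lT ((cval d true)⁻¹)) u) = none → (gOne u ↔ kOne u)
  rule2 : ∀ u, cl u → hOne u → tag u = false →
    fr (hA (lT ((cval d false)⁻¹)) u) = none → ¬ (gOne u ∧ kOne u)

end Vale.Agent.P193.Core.Empty
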