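import Vale.Agent.P193.Full.Core.Empty.AtomObDefs
import Vale.Agent.P193.Full.Core.Inst.Compat

/-! When a structure of virtual points reads the predicates of the core instance: a few local
properties make the observation of an atom say exactly that the atom holds. -/

namespace Vale.Agent.P193.Core.Empty

open Inst

set_option linter.unusedSectionVars false

variable {d : Data} [DecidableEq d.M.A]

/-- The constructor of a push at the trivial translate. -/
abbrev ctor1 (p : Inst.Push) : Ctor d := pushCtor p 1

/-- A way to read atoms at virtual points, given by its values on translated bases, along edges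
and along pushes. -/
structure Reads (V : VSpace d) (val : V.U → Inst.Atom d → Prop) : Prop where
  base : ∀ u k m B, val u (.base [] k m B) ↔ V.Holds (obBase k m B) u
  edge_val : ∀ (e : OEdge d) (A : Inst.Atom d) v, A.Ok → A.st = e.1.tgt → V.st v = e.1.tgt →
    (val (V.edge e.1 v) (A.consEdge e) ↔ val v A)
  edge_onto : ∀ (e : OEdge d) (A : Inst.Atom d) u, A.Ok → A.st = e.1.tgt →
    val u (A.consEdge e) → ∃ v, V.st v = e.1.tgt ∧ V.edge e.1 v = u
  shift : ∀ u k m p A, A.Ok → Inst.Atom.Dom p A →
    (val u (.push [] k m p A) ↔ val (V.gA m (V.hA k u)) (.push [] 1 1 p A))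
  push_val : ∀ p A w, A.Ok → Inst.Atom.Dom p A → V.st w = A.st → V.Dom (ctor1 p) w →
    (val (V.push (ctor1 p) w) (.push [] 1 1 p A) ↔ val w A)
  push_onto : ∀ p A u, A.Ok → Inst.Atom.Dom p A → val u (.push [] 1 1 p A) →
    ∃ w, V.Dom (ctor1 p) w ∧ V.st w = A.st ∧ V.push (ctor1 p) w = u

/-- A pushed observation, read through the translations. -/
theorem holds_obPushV (V : VSpace d) (k : Outer d) (m : Inner d) (p : Inst.Push) (O : Ob d)
    (u : V.U) :
    V.Holds (obPush k m p O) u ↔
      ∃ w, V.Dom (ctor1 p) w ∧ V.gA m (V.hA k u) = V.push (ctor1 p) w ∧ V.Holds O w := by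
  by_cases hp : p = .theta
  · subst hp
    simp only [obPush, if_true, VSpace.Holds, pushCtor, ctor1]
    constructor
    · rintro ⟨w, -, hw, hO⟩
      exact ⟨w, trivial, by rw [hw, V.theta_r, mul_inv_cancel], hO⟩
    · rintro ⟨w, -, hw, hO⟩
      exact ⟨w, trivial, by rw [V.theta_eq, ← hw, V.gA_inv], hO⟩
  · have hc : pushCtor p m = (ctor1 p : Ctor d) := by
      cases p <;> first | exact absurd rfl hp | rfl
    have hg : ∀ (k : Inner d) w, V.Dom (ctor1 p) w →
        V.gA k (V.push (ctor1 p) w) = V.push (ctor1 p) (V.gA k w) := by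
      intro k w hw
      cases p with
      | theta => exact absurd rfl hp
      | omC => exact V.omC_g k w hw
      | omD => exact V.omD_g k w hw
      | omK => exact V.omK_g k w hw.1 hw.2
      | tMap => exact V.tM_g k w hw.1 hw.2.1 hw.2.2
    have hO := (exists_preG m O).choose_spec.2 V
    simp only [obPush, if_neg hp, hc, VSpace.Holds]
    constructor
    · rintro ⟨w, hd, hw, h⟩
      exact ⟨V.gA m w, V.dom_g _ m hd, by rw [hw, hg m w hd], (hO w).1 h⟩
    · rintro ⟨w, hd, hw, h⟩
      refine ⟨V.gA m⁻¹ w, V.dom_g _ _ hd, ?_, (hO _).2 (by simpa [V.gA_inv'] using h)⟩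
      rw [← hg _ w hd, ← hw, V.gA_inv]

variable {V : VSpace d} {val : V.U → Inst.Atom d → Prop} (h : Reads V val)
include h

/-- The observation of an atom says that the atom holds. -/
theorem Reads.holds_obAtom :
    ∀ (A : Inst.Atom d), A.Ok → ∀ u : V.U, V.Holds (obAtom A) u ↔ val u A := by
  have step : ∀ (e : OEdge d) (A : Inst.Atom d), A.Ok → A.st = e.1.tgt →
      (∀ u, V.Holds (obAtom A) u ↔ val u A) →
      ∀ u, V.Holds (.sub e.1 (obAtom A)) u ↔ val u (A.consEdge e) := by
    intro e A hA hs ih u
    constructor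
    · rintro ⟨v, -, hv, rfl, hO⟩
      exact (h.edge_val e A v hA hs hv).2 ((ih v).1 hO)
    · intro hu
      obtain ⟨v, hv, rfl⟩ := h.edge_onto e A u hA hs hu
      exact ⟨v, e.2, hv, rfl, (ih v).2 ((h.edge_val e A v hA hs hv).1 hu)⟩
  intro A
  induction A with
  | base π k m B =>
    induction π with
    | nil => exact fun _ u => (h.base u k m B).symm
    | cons e π ih => exact fun hA => step e (.base π k m B) hA.2 hA.1.symm (ih hA.2)
  | push π k m p A ihA =>
    induction π with
    | nil =>
      intro hA u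
      obtain ⟨-, hA, hd⟩ := hA
      show V.Holds (obPush k m p _) u ↔ _
      rw [holds_obPushV, h.shift u k m p A hA hd]
      constructor
      · rintro ⟨w, hw, he, hs, hO⟩
        rw [he]
        exact (h.push_val p A w hA hd hs hw).2 ((ihA hA w).1 hO)
      · intro hu
        obtain ⟨w, hw, hs, he⟩ := h.push_onto p A _ hA hd hu
        rw [← he] at hu
        exact ⟨w, hw, he.symm, hs, (ihA hA w).2 ((h.push_val p A w hA hd hs hw).1 hu)⟩
    | cons e π ih =>
      exact fun hA => step e (.push π k m p A) ⟨hA.1.2, hA.2⟩ hA.1.1.symm (ih ⟨hA.1.2, hA.2⟩)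

end Vale.Agent.P193.Core.Empty
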