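import Vale.Agent.P193.Full.Core.Empty.Tree

/-! Observations of virtual points, closed under precomposition with every generator. The
closure is by recursion on the observation and never needs the machine. -/

namespace Vale.Agent.P193.Core.Empty

open FreeGroup

set_option linter.unusedSectionVars false

variable {d : Data}

/-- Basic observations. -/
inductive Atom (d : Data) where
  | st (s : State d)
  | tag
  | cl
  | front (t : Outer d) (o : Option (Ltr d × Bool))
  | h (t : Outer d)
  | g (k : Inner d)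
  | k (k : Inner d)

/-- Observations. -/
inductive Ob (d : Data) where
  | top
  | atom (a : Atom d)
  | not (O : Ob d)
  | and (O O' : Ob d)
  | sub (e : Edge d) (O : Ob d)
  | pop (K : Ctor d) (t : Outer d) (O : Ob d)

namespace Ob

/-- The false observation. -/
def bot : Ob d := .not .top

/-- Disjunction. -/
def or (O O' : Ob d) : Ob d := .not (.and (.not O) (.not O'))

/-- A constant observation. -/
noncomputable def const (p : Prop) : Ob d :=
  open Classical in if p then .top else bot

/-- The nesting depth of edges and constructors. -/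
def depth : Ob d → ℕ
  | .top => 0
  | .atom _ => 0
  | .not O => depth O
  | .and O O' => max (depth O) (depth O')
  | .sub _ O => depth O + 1
  | .pop _ _ O => depth O + 1

end Ob

namespace VSpace

variable (V : VSpace d)

/-- The virtual points a constructor applies to. -/
def Dom : Ctor d → V.U → Prop
  | .theta _, _ => True
  | .omC, v => V.tag v = true
  | .omD, v => V.tag v = false
  | .omK, v => V.tag v = false ∧ V.st v = .guess
  | .tM, v => V.tag v = false ∧ V.st v = .fin ∧ V.hOne v

/-- A basic observation at a virtual point. -/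
def AHolds : Atom d → V.U → Prop
  | .st s, u => V.st u = s
  | .tag, u => V.tag u = true
  | .cl, u => V.cl u
  | .front t o, u => V.fr (V.hA t u) = o
  | .h t, u => V.hOne (V.hA t u)
  | .g k, u => V.gOne (V.gA k u)
  | .k k, u => V.kOne (V.gA k u)

/-- An observation at a virtual point. -/
def Holds : Ob d → V.U → Prop
  | .top, _ => True
  | .atom a, u => V.AHolds a u
  | .not O, u => ¬ Holds O u
  | .and O O', u => Holds O u ∧ Holds O' u
  | .sub e O, u => ∃ v, e.OK ∧ V.st v = e.tgt ∧ V.edge e v = u ∧ Holds O v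
  | .pop K t O, u => ∃ v, V.Dom K v ∧ V.hA t u = V.push K v ∧ Holds O v

@[simp] theorem holds_bot (u : V.U) : ¬ V.Holds Ob.bot u := fun h => h trivial

@[simp] theorem holds_const (p : Prop) (u : V.U) : V.Holds (Ob.const p) u ↔ p := by
  classical
  by_cases hp : p <;> simp [Ob.const, hp, Holds, Ob.bot]

theorem holds_or (O O' : Ob d) (u : V.U) : V.Holds (O.or O') u ↔ V.Holds O u ∨ V.Holds O' u := by
  simp only [Ob.or, Holds]; tauto

theorem dom_g (K : Ctor d) (k : Inner d) {v : V.U} (h : V.Dom K v) : V.Dom K (V.gA k v) := by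
  cases K <;> simp_all [Dom, V.tag_g, V.st_g, V.hOne_g]

theorem dom_h (K : Ctor d) (hK : K ≠ .tM) (t : Outer d) {v : V.U} (h : V.Dom K v) :
    V.Dom K (V.hA t v) := by
  cases K <;> simp_all [Dom, V.tag_h, V.st_h]

/-- Injectivity of the map of the inner group. -/
theorem toInner_inj (hG : Good d) : Function.Injective (toInner d) := by
  intro a b h
  simp [toInner, Prod.ext_iff] at h
  exact Prod.ext h.1 (Prod.ext (hG.emb2_inj h.2.1) (hG.emb2_inj h.2.2))

theorem theta_one (t : Outer d) (v : V.U) :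
    V.gA (toInner d t) (V.push (.theta 1) v) = V.push (.theta 1) (V.hA t v) := by
  rw [V.theta_r, V.theta_emb]; simp

theorem theta_eq (r : Inner d) (v : V.U) :
    V.push (.theta r) v = V.gA r⁻¹ (V.push (.theta 1) v) := by
  rw [V.theta_r]; simp

theorem hdisj (hG : Good d) {t : Outer d} {u : V.U} (h : V.hOne u) (h' : V.hOne (V.hA t u)) :
    t = 1 := by
  refine toInner_inj hG ((V.gdisj _ _ ((V.theta_gOne u).2 h) ?_).trans (_root_.map_one _).symm)
  rw [V.theta_one]
  exact (V.theta_gOne _).2 h'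

theorem push_tag_of (K : Ctor d) (v : V.U) : V.tag (V.push K v) = K.tag := V.push_tag K v

theorem gOne_theta (r k : Inner d) (v : V.U) :
    V.gOne (V.gA k (V.push (.theta r) v)) ↔
      ∃ t, toInner d t = r * k⁻¹ ∧ V.hOne (V.hA t⁻¹ v) := by
  rw [V.theta_r]
  constructor
  · intro h
    obtain ⟨t, ht⟩ := V.theta_gOne_range _ _ h
    refine ⟨t, ht, ?_⟩
    rw [← V.theta_gOne, V.theta_emb, _root_.map_inv, inv_inv, ht, mul_one]
    exact h
  · rintro ⟨t, ht, h⟩
    rw [← V.theta_gOne, V.theta_emb, _root_.map_inv, inv_inv, ht, mul_one] at h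
    exact h

theorem fr_push [DecidableEq d.M.A] (K : Ctor d) (t : Outer d) (v : V.U) :
    V.fr (V.hA t (V.push K v)) = (t.2.1 * t.2.2⁻¹).toWord.head? :=
  V.fr_trans_none (by
    have h := V.shape _ (V.push_hOne K v)
    rwa [V.push_st] at h) t

end VSpace

/-- Two observations agree at every virtual point of every structure after a map. -/
def Ob.IsPre (O O' : Ob d) (f : ∀ V : VSpace d, V.U → V.U) : Prop :=
  O'.depth ≤ O.depth ∧ ∀ (V : VSpace d) (u : V.U), V.Holds O' u ↔ V.Holds O (f V u)

theorem exists_preH (s : Outer d) : ∀ O : Ob d, ∃ O', O.IsPre O' fun V u => V.hA s u := by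
  intro O
  induction O with
  | top => exact ⟨.top, le_rfl, fun V u => Iff.rfl⟩
  | atom a =>
    cases a with
    | st x => exact ⟨.atom (.st x), le_rfl, fun V u => by simp [VSpace.Holds, VSpace.AHolds, V.st_h]⟩
    | tag => exact ⟨.atom .tag, le_rfl, fun V u => by simp [VSpace.Holds, VSpace.AHolds, V.tag_h]⟩
    | cl => exact ⟨.atom .cl, le_rfl, fun V u => by simp [VSpace.Holds, VSpace.AHolds, V.cl_h]⟩
    | front t o =>
      exact ⟨.atom (.front (t * s) o), le_rfl, fun V u => by
        simp only [VSpace.Holds, VSpace.AHolds, V.hA_mul]⟩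
    | h t =>
      exact ⟨.atom (.h (t * s)), le_rfl, fun V u => by
        simp only [VSpace.Holds, VSpace.AHolds, V.hA_mul]⟩
    | g k => exact ⟨.atom (.g k), le_rfl, fun V u => by
        simp only [VSpace.Holds, VSpace.AHolds, V.comm_gh, V.gOne_h]⟩
    | k k => exact ⟨.atom (.k k), le_rfl, fun V u => by
        simp only [VSpace.Holds, VSpace.AHolds, V.comm_gh, V.kOne_h]⟩
  | not O ih =>
    obtain ⟨O', h1, h2⟩ := ih
    exact ⟨.not O', h1, fun V u => not_congr (h2 V u)⟩
  | and O P ihO ihP =>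
    obtain ⟨O', h1, h2⟩ := ihO
    obtain ⟨P', h3, h4⟩ := ihP
    exact ⟨.and O' P', max_le_max h1 h3, fun V u => and_congr (h2 V u) (h4 V u)⟩
  | sub e O ih =>
    obtain ⟨O', h1, h2⟩ := ih
    refine ⟨.sub e O', Nat.succ_le_succ h1, fun V u => ⟨?_, ?_⟩⟩
    · rintro ⟨v, he, hv, rfl, hO⟩
      exact ⟨V.hA s v, he, by rw [V.st_h, hv], (V.edge_h e v s he hv).symm, (h2 V v).1 hO⟩
    · rintro ⟨v, he, hv, huv, hO⟩
      refine ⟨V.hA s⁻¹ v, he, by rw [V.st_h, hv], ?_, (h2 V _).2 (by simpa [V.hA_inv'] using hO)⟩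
      rw [← V.edge_h e v s⁻¹ he hv, huv, V.hA_inv]
  | pop K t O _ =>
    exact ⟨.pop K (t * s) O, le_rfl, fun V u => by simp only [VSpace.Holds, V.hA_mul]⟩

theorem exists_preG (k : Inner d) : ∀ O : Ob d, ∃ O', O.IsPre O' fun V u => V.gA k u := by
  intro O
  induction O with
  | top => exact ⟨.top, le_rfl, fun V u => Iff.rfl⟩
  | atom a =>
    cases a with
    | st x => exact ⟨.atom (.st x), le_rfl, fun V u => by simp [VSpace.Holds, VSpace.AHolds, V.st_g]⟩
    | tag => exact ⟨.atom .tag, le_rfl, fun V u => by simp [VSpace.Holds, VSpace.AHolds, V.tag_g]⟩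
    | cl => exact ⟨.atom .cl, le_rfl, fun V u => by simp [VSpace.Holds, VSpace.AHolds, V.cl_g]⟩
    | front t o =>
      exact ⟨.atom (.front t o), le_rfl, fun V u => by
        simp only [VSpace.Holds, VSpace.AHolds, ← V.comm_gh, V.fr_g]⟩
    | h t =>
      exact ⟨.atom (.h t), le_rfl, fun V u => by
        simp only [VSpace.Holds, VSpace.AHolds, ← V.comm_gh, V.hOne_g]⟩
    | g m => exact ⟨.atom (.g (m * k)), le_rfl, fun V u => by
        simp only [VSpace.Holds, VSpace.AHolds, V.gA_mul]⟩
    | k m => exact ⟨.atom (.k (m * k)), le_rfl, fun V u => by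
        simp only [VSpace.Holds, VSpace.AHolds, V.gA_mul]⟩
  | not O ih =>
    obtain ⟨O', h1, h2⟩ := ih
    exact ⟨.not O', h1, fun V u => not_congr (h2 V u)⟩
  | and O P ihO ihP =>
    obtain ⟨O', h1, h2⟩ := ihO
    obtain ⟨P', h3, h4⟩ := ihP
    exact ⟨.and O' P', max_le_max h1 h3, fun V u => and_congr (h2 V u) (h4 V u)⟩
  | sub e O ih =>
    obtain ⟨O', h1, h2⟩ := ih
    refine ⟨.sub e O', Nat.succ_le_succ h1, fun V u => ⟨?_, ?_⟩⟩
    · rintro ⟨v, he, hv, rfl, hO⟩
      exact ⟨V.gA k v, he, by rw [V.st_g, hv], (V.edge_g e v k he hv).symm, (h2 V v).1 hO⟩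
    · rintro ⟨v, he, hv, huv, hO⟩
      refine ⟨V.gA k⁻¹ v, he, by rw [V.st_g, hv], ?_, (h2 V _).2 (by simpa [V.gA_inv'] using hO)⟩
      rw [← V.edge_g e v k⁻¹ he hv, huv, V.gA_inv]
  | pop K t O ih =>
    obtain ⟨O', h1, h2⟩ := ih
    have key : ∀ (K : Ctor d), (∀ (V : VSpace d) (v : V.U), V.Dom K v →
        V.gA k (V.push K v) = V.push K (V.gA k v)) →
        (Ob.pop K t O).IsPre (.pop K t O') fun V u => V.gA k u := by
      refine fun K hK => ⟨Nat.succ_le_succ h1, fun V u => ⟨?_, ?_⟩⟩
      · rintro ⟨v, hd, hu, hO⟩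
        exact ⟨V.gA k v, V.dom_g K k hd, by rw [← V.comm_gh, hu, hK V v hd], (h2 V v).1 hO⟩
      · rintro ⟨v, hd, hu, hO⟩
        refine ⟨V.gA k⁻¹ v, V.dom_g K _ hd, ?_, (h2 V _).2 (by simpa [V.gA_inv'] using hO)⟩
        have := hK V _ (V.dom_g K k⁻¹ hd)
        rw [V.gA_inv', ← hu, ← V.comm_gh] at this
        exact ((V.gA k).injective this).symm
    cases K with
    | theta r =>
      refine ⟨.pop (.theta (r * k)) t O, le_rfl, fun V u => ⟨?_, ?_⟩⟩
      · rintro ⟨v, -, hu, hO⟩
        refine ⟨v, trivial, ?_, hO⟩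
        rw [← V.comm_gh, hu, V.theta_r, mul_inv_cancel_right]
      · rintro ⟨v, -, hu, hO⟩
        refine ⟨v, trivial, ?_, hO⟩
        apply (V.gA k).injective
        rw [V.comm_gh, hu, V.theta_r, mul_inv_cancel_right]
    | omC => exact ⟨_, key _ fun V v h => V.omC_g k v h⟩
    | omD => exact ⟨_, key _ fun V v h => V.omD_g k v h⟩
    | omK => exact ⟨_, key _ fun V v h => V.omK_g k v h.1 h.2⟩
    | tM => exact ⟨_, key _ fun V v h => V.tM_g k v h.1 h.2.1 h.2.2⟩

/-- Pulling an observation back along an edge loses one level. -/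
theorem exists_preEdge (e : Edge d) (he : e.OK) : ∀ O : Ob d,
    ∃ O' : Ob d, O'.depth ≤ O.depth - 1 ∧ ∀ (V : VSpace d) (v : V.U), V.st v = e.tgt →
      (V.Holds O' v ↔ V.Holds O (V.edge e v)) := by
  classical
  intro O
  induction O with
  | top => exact ⟨.top, le_rfl, fun V v _ => Iff.rfl⟩
  | atom a =>
    cases a with
    | st x => exact ⟨Ob.const (e.src = x), by
        unfold Ob.const; split <;> simp [Ob.depth, Ob.bot], fun V v hv => by
        rw [V.holds_const]; simp only [VSpace.Holds, VSpace.AHolds, V.edge_st e v he hv]⟩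
    | tag => exact ⟨.atom .tag, le_rfl, fun V v hv => by
        simp [VSpace.Holds, VSpace.AHolds, V.edge_tag e v he hv]⟩
    | cl =>
      cases hk : e.kind with
      | letter i => exact ⟨.atom .cl, le_rfl, fun V v hv =>
          (V.edge_cl_letter e i v he hk hv).symm⟩
      | junk => exact ⟨Ob.bot, le_rfl, fun V v hv =>
          iff_of_false (V.holds_bot v) (V.edge_cl_junk e v he hk hv)⟩
      | other => exact ⟨Ob.const (e.src = .guess), by
          unfold Ob.const; split <;> simp [Ob.depth, Ob.bot], fun V v hv => by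
          rw [V.holds_const]; exact (V.edge_cl_other e v he hk hv).symm⟩
    | front t o => exact ⟨.atom (.front t o), le_rfl, fun V v hv => by
        simp only [VSpace.Holds, VSpace.AHolds, V.edge_h e v t he hv]
        rw [V.edge_fr e _ he (by rw [V.st_h, hv])]⟩
    | h t => exact ⟨.atom (.h ((eT e)⁻¹ * t)), le_rfl, fun V v hv => by
        simp only [VSpace.Holds, VSpace.AHolds, V.edge_h e v t he hv, V.hA_mul]
        rw [V.edge_hOne e _ he (by rw [V.st_h, hv])]⟩
    | g m => exact ⟨.atom (.g m), le_rfl, fun V v hv => by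
        simp only [VSpace.Holds, VSpace.AHolds, V.edge_g e v m he hv]
        rw [V.edge_gOne e _ he (by rw [V.st_g, hv])]⟩
    | k m =>
      by_cases hk : ∃ i, e.kind = .letter i
      · obtain ⟨i, hk⟩ := hk
        exact ⟨.atom (.k ((d.gen i)⁻¹ * m)), le_rfl, fun V v hv => by
          simp only [VSpace.Holds, VSpace.AHolds, V.edge_g e v m he hv, V.gA_mul]
          rw [V.edge_k_letter e i _ he hk (by rw [V.st_g, hv])]⟩
      · exact ⟨.and (Ob.const (e.src = .guess)) (.atom (.g m)), by
          unfold Ob.const; split <;> simp [Ob.depth, Ob.bot], fun V v hv => by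
          simp only [VSpace.Holds, VSpace.AHolds, V.edge_g e v m he hv, V.holds_const]
          rw [V.edge_k_other e _ he (fun i hi => hk ⟨i, hi⟩) (by rw [V.st_g, hv])]⟩
  | not O ih =>
    obtain ⟨O', h1, h2⟩ := ih
    exact ⟨.not O', h1, fun V v hv => not_congr (h2 V v hv)⟩
  | and O P ihO ihP =>
    obtain ⟨O', h1, h2⟩ := ihO
    obtain ⟨P', h3, h4⟩ := ihP
    exact ⟨.and O' P', by simp [Ob.depth]; omega, fun V v hv =>
      and_congr (h2 V v hv) (h4 V v hv)⟩
  | sub e' O _ =>
    by_cases h : e' = e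
    · subst h
      refine ⟨O, le_rfl, fun V v hv => ⟨fun hO => ⟨v, he, hv, rfl, hO⟩, ?_⟩⟩
      rintro ⟨w, -, hw, heq, hO⟩
      obtain ⟨-, rfl⟩ := V.edge_inj e' e' w v he he hw hv heq
      exact hO
    · refine ⟨Ob.bot, Nat.zero_le _, fun V v hv => iff_of_false (V.holds_bot v) ?_⟩
      rintro ⟨w, he', hw, heq, -⟩
      exact h (V.edge_inj e' e w v he' he hw hv heq).1
  | pop K t O _ =>
    refine ⟨Ob.bot, Nat.zero_le _, fun V v hv => iff_of_false (V.holds_bot v) ?_⟩
    rintro ⟨w, -, heq, -⟩
    have := congrArg V.st heq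
    rw [V.st_h, V.edge_st e v he hv, V.push_st] at this
    exact Path.src_ne_fin he this

/-- Pulling an observation back along a constructor loses one level. -/
theorem exists_prePush [DecidableEq d.M.A] (hG : Good d) (K : Ctor d) : ∀ O : Ob d,
    ∃ O' : Ob d, O'.depth ≤ O.depth - 1 ∧ ∀ (V : VSpace d) (v : V.U), V.Dom K v →
      (V.Holds O' v ↔ V.Holds O (V.push K v)) := by
  classical
  have dc : ∀ p : Prop, (Ob.const (d := d) p).depth = 0 := fun p => by
    unfold Ob.const; split <;> simp [Ob.depth, Ob.bot]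
  intro O
  induction O with
  | top => exact ⟨.top, le_rfl, fun V v _ => Iff.rfl⟩
  | atom a =>
    cases a with
    | st x => exact ⟨Ob.const (St.fin = x), by simp [dc], fun V v _ => by
        rw [V.holds_const]; simp only [VSpace.Holds, VSpace.AHolds, V.push_st]⟩
    | tag => exact ⟨Ob.const (K.tag = true), by simp [dc], fun V v _ => by
        rw [V.holds_const]; simp only [VSpace.Holds, VSpace.AHolds, V.push_tag]⟩
    | cl =>
      refine ⟨Ob.bot, le_rfl, fun V v _ => iff_of_false (V.holds_bot v) fun h => ?_⟩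
      have := V.cl_guess _ h
      rw [V.push_st] at this
      cases this
    | front t o => exact ⟨Ob.const ((t.2.1 * t.2.2⁻¹).toWord.head? = o), by simp [dc],
        fun V v _ => by rw [V.holds_const]; simp only [VSpace.Holds, VSpace.AHolds, V.fr_push]⟩
    | h t =>
      refine ⟨Ob.const (t = 1), by simp [dc], fun V v _ => ?_⟩
      rw [V.holds_const]
      refine ⟨fun h => ?_, fun h => V.hdisj hG (V.push_hOne K v) h⟩
      show V.hOne (V.hA t _)
      rw [h, V.hA_one]
      exact V.push_hOne K v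
    | k m =>
      refine ⟨Ob.bot, le_rfl, fun V v _ => iff_of_false (V.holds_bot v) fun h => ?_⟩
      have := (V.kOne_tag _ h).2
      rw [V.st_g, V.push_st] at this
      cases this
    | g m =>
      cases K with
      | theta r =>
        by_cases hr : ∃ t, toInner d t = r * m⁻¹
        · obtain ⟨t, ht⟩ := hr
          refine ⟨.atom (.h t⁻¹), le_rfl, fun V v _ => ?_⟩
          show _ ↔ V.gOne _
          rw [V.gOne_theta]
          refine ⟨fun h => ⟨t, ht, h⟩, ?_⟩
          rintro ⟨t', ht', h⟩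
          rwa [VSpace.toInner_inj hG (ht.trans ht'.symm)]
        · refine ⟨Ob.bot, le_rfl, fun V v _ => iff_of_false (V.holds_bot v) fun h => ?_⟩
          obtain ⟨t, ht, -⟩ := (V.gOne_theta r m v).1 h
          exact hr ⟨t, ht⟩
      | omC =>
        refine ⟨Ob.bot, le_rfl, fun V v _ => iff_of_false (V.holds_bot v) fun h => ?_⟩
        have := V.gOne_tag _ h
        rw [V.tag_g, V.push_tag] at this
        simp [Ctor.tag] at this
      | tM =>
        refine ⟨Ob.bot, le_rfl, fun V v _ => iff_of_false (V.holds_bot v) fun h => ?_⟩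
        have := V.gOne_tag _ h
        rw [V.tag_g, V.push_tag] at this
        simp [Ctor.tag] at this
      | omD => exact ⟨.atom (.g m), le_rfl, fun V v h => by
          simp only [VSpace.Holds, VSpace.AHolds, V.omD_g m v h]
          rw [V.omD_gOne _ (by rw [V.tag_g]; exact h)]⟩
      | omK => exact ⟨.atom (.k m), le_rfl, fun V v h => by
          simp only [VSpace.Holds, VSpace.AHolds, V.omK_g m v h.1 h.2]
          rw [V.omK_gOne _ (by rw [V.tag_g]; exact h.1) (by rw [V.st_g]; exact h.2)]⟩
  | not O ih =>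
    obtain ⟨O', h1, h2⟩ := ih
    exact ⟨.not O', h1, fun V v hv => not_congr (h2 V v hv)⟩
  | and O P ihO ihP =>
    obtain ⟨O', h1, h2⟩ := ihO
    obtain ⟨P', h3, h4⟩ := ihP
    exact ⟨.and O' P', by simp [Ob.depth]; omega, fun V v hv =>
      and_congr (h2 V v hv) (h4 V v hv)⟩
  | sub e O _ =>
    refine ⟨Ob.bot, Nat.zero_le _, fun V v _ => iff_of_false (V.holds_bot v) ?_⟩
    rintro ⟨w, he, hw, heq, -⟩
    have := congrArg V.st heq
    rw [V.edge_st e w he hw, V.push_st] at this
    exact Path.src_ne_fin he this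
  | pop K' t O _ =>
    by_cases ht : t = 1
    swap
    · refine ⟨Ob.bot, Nat.zero_le _, fun V v _ => iff_of_false (V.holds_bot v) ?_⟩
      rintro ⟨w, -, heq, -⟩
      exact ht (V.hdisj hG (V.push_hOne K v) (heq ▸ V.push_hOne K' w))
    subst ht
    by_cases hsame : K' = K ∧ ∀ r, K ≠ .theta r
    · obtain ⟨rfl, hne⟩ := hsame
      refine ⟨O, le_rfl, fun V v hv => ⟨fun h => ⟨v, hv, by rw [V.hA_one], h⟩, ?_⟩⟩
      rintro ⟨w, hw, heq, hO⟩
      rw [V.hA_one] at heq
      suffices v = w by rwa [this]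
      cases K' with
      | theta r => exact absurd rfl (hne r)
      | omC => exact V.omC_inj v w hv hw heq
      | omD => exact V.omD_inj v w hv hw heq
      | omK => exact V.omK_inj v w hv.1 hv.2 hw.1 hw.2 heq
      | tM => exact V.tM_inj v w hv.1 hv.2.1 hv.2.2 hw.1 hw.2.1 hw.2.2 heq
    by_cases hth : ∃ r r' s, K = .theta r ∧ K' = .theta r' ∧ r' = toInner d s * r
    · obtain ⟨r, r', s, rfl, rfl, rfl⟩ := hth
      obtain ⟨O', h1, h2⟩ := exists_preH s O
      refine ⟨O', h1.trans (by simp [Ob.depth]), fun V v _ => ?_⟩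
      have e : V.push (.theta (toInner d s * r)) (V.hA s v) = V.push (.theta r) v := by
        rw [V.theta_emb, inv_mul_cancel_left]
      rw [h2]
      dsimp only
      refine ⟨fun h => ⟨V.hA s v, trivial, by rw [V.hA_one, e], h⟩, ?_⟩
      rintro ⟨w, -, heq, hO⟩
      rw [V.hA_one, ← e] at heq
      suffices V.hA s v = w by rwa [this]
      rw [V.theta_eq, V.theta_eq _ w] at heq
      exact V.theta_inj _ _ ((V.gA _).injective heq)
    refine ⟨Ob.bot, Nat.zero_le _, fun V v hv => iff_of_false (V.holds_bot v) ?_⟩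
    rintro ⟨w, hw, heq, -⟩
    rw [V.hA_one] at heq
    have htag := congrArg V.tag heq
    rw [V.push_tag, V.push_tag] at htag
    cases K <;> cases K' <;> simp [Ctor.tag] at htag
    all_goals first
      | exact hsame ⟨rfl, by intro r; simp⟩
      | exact V.theta_omD _ _ _ hv heq.symm
      | exact V.theta_omD _ _ _ hw heq
      | exact V.theta_omK _ _ _ hv.1 hv.2 heq.symm
      | exact V.theta_omK _ _ _ hw.1 hw.2 heq
      | exact V.omD_omK _ _ hv hw.1 hw.2 heq
      | exact V.omD_omK _ _ hw hv.1 hv.2 heq.symm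
      | exact V.omC_tM _ _ hv hw.1 hw.2.1 hw.2.2 heq
      | exact V.omC_tM _ _ hw hv.1 hv.2.1 hv.2.2 heq.symm
      | skip
    obtain ⟨s, hs⟩ := V.theta_coset _ _ _ _ heq
    exact hth ⟨_, _, s, rfl, rfl, by rw [hs, inv_mul_cancel_right]⟩

/-- Pulling back along the maps by the guessed value. -/
theorem exists_preM (j : Fin 3) : ∀ O : Ob d, ∃ O', O.IsPre O' fun V u => V.uM j u := by
  intro O
  induction O with
  | top => exact ⟨.top, le_rfl, fun V u => Iff.rfl⟩
  | atom a =>
    refine ⟨.atom a, le_rfl, fun V u => ?_⟩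
    have hid := V.uM_id j u
    cases a with
    | g m =>
      by_cases h : V.st u = .guess ∧ V.tag u = true
      · refine iff_of_false (fun hg => ?_) fun hg => ?_
        · have := V.gOne_tag _ hg
          rw [V.tag_g, h.2] at this; simp at this
        · have := V.gOne_tag _ hg
          rw [V.tag_g, V.uM_tag, h.2] at this; simp at this
      · dsimp only; rw [hid h]
    | k m =>
      by_cases h : V.st u = .guess ∧ V.tag u = true
      · refine iff_of_false (fun hg => ?_) fun hg => ?_
        · have := (V.kOne_tag _ hg).1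
          rw [V.tag_g, h.2] at this; simp at this
        · have := (V.kOne_tag _ hg).1
          rw [V.tag_g, V.uM_tag, h.2] at this; simp at this
      · dsimp only; rw [hid h]
    | _ => simp [VSpace.Holds, VSpace.AHolds, V.uM_st, V.uM_tag, V.uM_cl, V.uM_fr, V.uM_hOne,
        V.uM_h]
  | not O ih =>
    obtain ⟨O', h1, h2⟩ := ih
    exact ⟨.not O', h1, fun V u => not_congr (h2 V u)⟩
  | and O P ihO ihP =>
    obtain ⟨O', h1, h2⟩ := ihO
    obtain ⟨P', h3, h4⟩ := ihP
    exact ⟨.and O' P', max_le_max h1 h3, fun V u => and_congr (h2 V u) (h4 V u)⟩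
  | pop K t O _ =>
    refine ⟨.pop K t O, le_rfl, fun V u => ?_⟩
    by_cases h : V.st u = .guess ∧ V.tag u = true
    · refine iff_of_false ?_ ?_ <;> rintro ⟨v, -, heq, -⟩ <;> have h' := congrArg V.st heq <;>
        simp [V.st_h, V.uM_st, V.push_st, h.1] at h'
    · dsimp only; rw [V.uM_id j u h]
  | sub e O ih =>
    by_cases hk : ∀ i, e.kind ≠ .letter i
    · refine ⟨.sub e O, le_rfl, fun V u => ⟨?_, ?_⟩⟩
      · rintro ⟨v, he, hv, rfl, hO⟩
        exact ⟨v, he, hv, (V.uM_other j e v he hk hv).symm, hO⟩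
      · rintro ⟨v, he, hv, heq, hO⟩
        refine ⟨v, he, hv, (V.uM j).injective ?_, hO⟩
        rw [V.uM_other j e v he hk hv, heq]
    push Not at hk
    obtain ⟨i, hk⟩ := hk
    obtain ⟨O1, h1, h2⟩ := ih
    obtain ⟨O2, h3, h4⟩ := exists_preG (Facts.proj j (d.gen i))⁻¹ O1
    refine ⟨.sub e (.or (.and (.atom .tag) O2) (.and (.not (.atom .tag)) O)),
      Nat.succ_le_succ (by simp [Ob.or, Ob.depth]; omega), fun V u => ⟨?_, ?_⟩⟩
    · rintro ⟨v, he, hv, rfl, hO⟩
      rcases (V.holds_or _ _ _).1 hO with ⟨ht, hO⟩ | ⟨ht, hO⟩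
      · exact ⟨_, he, by rw [V.uM_st, V.st_g, hv], (V.uM_letter j e i v he hk hv ht).symm,
          (h2 V _).1 ((h4 V v).1 hO)⟩
      · refine ⟨v, he, hv, (V.uM_id j _ fun h => ?_).symm, hO⟩
        exact ht ((V.edge_tag e v he hv).symm.trans h.2)
    · rintro ⟨v, he, hv, heq, hO⟩
      have htag : V.tag v = V.tag u := by
        rw [← V.edge_tag e v he hv, heq, V.uM_tag]
      by_cases ht : V.tag u = true
      · let c := Facts.proj j (d.gen i)
        refine ⟨V.gA c ((V.uM j).symm v), he, ?_, (V.uM j).injective ?_, (V.holds_or _ _ _).2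
          (Or.inl ⟨?_, (h4 V _).2 ((h2 V _).2 ?_)⟩)⟩
        · rw [V.st_g, ← V.uM_st j, Equiv.apply_symm_apply, hv]
        · rw [V.uM_letter j e i _ he hk (by rw [V.st_g, ← V.uM_st j, Equiv.apply_symm_apply, hv])
            (by rw [V.tag_g, ← V.uM_tag j, Equiv.apply_symm_apply, htag, ht]), V.gA_inv,
            Equiv.apply_symm_apply, heq]
        · show V.tag _ = true
          rw [V.tag_g, ← V.uM_tag j, Equiv.apply_symm_apply, htag, ht]
        · simpa [V.gA_inv, c] using hO
      · have hid := V.uM_id j u fun h => ht h.2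
        refine ⟨v, he, hv, heq.trans hid, (V.holds_or _ _ _).2 (Or.inr ⟨?_, hO⟩)⟩
        show ¬ V.tag v = true
        rwa [htag]

/-- Pulling back along the inverse maps, after an inner translation. -/
theorem exists_preMi (j : Fin 3) : ∀ (O : Ob d) (k : Inner d),
    ∃ O', O.IsPre O' fun V u => V.gA k ((V.uM j).symm u) := by
  intro O
  induction O with
  | top => exact fun k => ⟨.top, le_rfl, fun V u => Iff.rfl⟩
  | atom a =>
    intro k
    obtain ⟨O', h1, h2⟩ := exists_preG k (.atom a)
    refine ⟨O', h1, fun V u => ?_⟩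
    by_cases h : V.st u = .guess ∧ V.tag u = true
    swap
    · rw [h2]; dsimp only
      rw [show (V.uM j).symm u = u from (V.uM j).injective
        (by rw [Equiv.apply_symm_apply, V.uM_id j u h])]
    have e1 : ∀ w, V.uM j w = u → V.tag w = true := fun w hw => by
      rw [← V.uM_tag j, hw]; exact h.2
    have ht := e1 _ ((V.uM j).apply_symm_apply u)
    rw [h2]; dsimp only
    cases a with
    | g m =>
      refine iff_of_false (fun hg => ?_) fun hg => ?_ <;> have := V.gOne_tag _ hg <;>
        simp [V.tag_g, h.2, ht] at this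
    | k m =>
      refine iff_of_false (fun hg => ?_) fun hg => ?_ <;> have := (V.kOne_tag _ hg).1 <;>
        simp [V.tag_g, h.2, ht] at this
    | _ =>
      conv_lhs => rw [← (V.uM j).apply_symm_apply u]
      simp only [VSpace.Holds, VSpace.AHolds, V.uM_st, V.uM_tag, V.uM_cl, V.uM_fr, V.uM_hOne, V.uM_h,
        ← V.comm_gh, V.st_g, V.tag_g, V.cl_g, V.fr_g, V.hOne_g]
  | not O ih =>
    intro k
    obtain ⟨O', h1, h2⟩ := ih k
    exact ⟨.not O', h1, fun V u => not_congr (h2 V u)⟩
  | and O P ihO ihP =>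
    intro k
    obtain ⟨O', h1, h2⟩ := ihO k
    obtain ⟨P', h3, h4⟩ := ihP k
    exact ⟨.and O' P', max_le_max h1 h3, fun V u => and_congr (h2 V u) (h4 V u)⟩
  | pop K t O _ =>
    intro k
    obtain ⟨O', h1, h2⟩ := exists_preG k (.pop K t O)
    refine ⟨O', h1, fun V u => ?_⟩
    rw [h2]; dsimp only
    by_cases h : V.st u = .guess ∧ V.tag u = true
    · have hs : V.st ((V.uM j).symm u) = .guess := by
        rw [← V.uM_st j, Equiv.apply_symm_apply]; exact h.1
      refine iff_of_false ?_ ?_ <;> rintro ⟨v, -, heq, -⟩ <;> have h' := congrArg V.st heq <;>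
        simp [V.st_h, V.st_g, V.push_st, h.1, hs] at h'
    · rw [show (V.uM j).symm u = u from (V.uM j).injective
        (by rw [Equiv.apply_symm_apply, V.uM_id j u h])]
  | sub e O ih =>
    intro k
    by_cases hk : ∀ i, e.kind ≠ .letter i
    · obtain ⟨O', h1, h2⟩ := exists_preG k (.sub e O)
      refine ⟨O', h1, fun V u => ?_⟩
      rw [h2]; dsimp only
      suffices ∀ {u : V.U}, (∃ v, e.OK ∧ V.st v = e.tgt ∧ V.edge e v = u) → V.uM j u = u by
        have key : ∀ w, (V.Holds (.sub e O) (V.gA k w)) → V.uM j w = w := by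
          rintro w ⟨v, he, hv, heq, -⟩
          refine this ⟨V.gA k⁻¹ v, he, by rw [V.st_g, hv], ?_⟩
          rw [← V.edge_g e v _ he hv, heq, V.gA_inv]
        refine ⟨fun h => ?_, fun h => ?_⟩
        · rwa [show (V.uM j).symm u = u from (V.uM j).injective
            (by rw [Equiv.apply_symm_apply, key u h])]
        · have := key _ h
          rw [Equiv.apply_symm_apply] at this
          rwa [← this] at h
      rintro u ⟨v, he, hv, rfl⟩
      exact V.uM_other j e v he hk hv
    push Not at hk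
    obtain ⟨i, hk⟩ := hk
    let c := Facts.proj j (d.gen i)
    obtain ⟨O2, h3, h4⟩ := ih (k * c)
    obtain ⟨O3, h5, h6⟩ := exists_preG k O
    refine ⟨.sub e (.or (.and (.atom .tag) O2) (.and (.not (.atom .tag)) O3)),
      Nat.succ_le_succ (by simp [Ob.or, Ob.depth]; omega), fun V u => ⟨?_, ?_⟩⟩
    · rintro ⟨v, he, hv, rfl, hO⟩
      rcases (V.holds_or _ _ _).1 hO with ⟨ht, hO⟩ | ⟨ht, hO⟩
      · have hs : V.st (V.gA c ((V.uM j).symm v)) = e.tgt := by
          rw [V.st_g, ← V.uM_st j, Equiv.apply_symm_apply, hv]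
        have e' : (V.uM j).symm (V.edge e v) = V.edge e (V.gA c ((V.uM j).symm v)) := by
          apply (V.uM j).injective
          rw [Equiv.apply_symm_apply, V.uM_letter j e i _ he hk hs
            (by rw [V.tag_g, ← V.uM_tag j, Equiv.apply_symm_apply]; exact ht), V.gA_inv,
            Equiv.apply_symm_apply]
        exact ⟨V.gA k (V.gA c ((V.uM j).symm v)), he, by rw [V.st_g, hs],
          by dsimp only; rw [e', V.edge_g e _ k he hs],
          by rw [← V.gA_mul]; exact (h4 V v).1 hO⟩
      · refine ⟨V.gA k v, he, by rw [V.st_g, hv], ?_, (h6 V v).1 hO⟩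
        dsimp only
        rw [show (V.uM j).symm (V.edge e v) = V.edge e v from (V.uM j).injective
          (by rw [Equiv.apply_symm_apply, V.uM_id]
              exact fun h => ht ((V.edge_tag e v he hv).symm.trans h.2)), V.edge_g e v k he hv]
    · rintro ⟨w, he, hw, heq, hO⟩
      let v := V.gA k⁻¹ w
      have hv : V.st v = e.tgt := by rw [V.st_g, hw]
      have heq' : V.edge e v = (V.uM j).symm u := by
        rw [← V.edge_g e w _ he hw, heq, V.gA_inv]
      have hu : u = V.uM j (V.edge e v) := by rw [heq', Equiv.apply_symm_apply]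
      have hwv : V.gA k v = w := V.gA_inv' k w
      by_cases ht : V.tag v = true
      · rw [V.uM_letter j e i v he hk hv ht] at hu
        refine ⟨_, he, by rw [V.uM_st, V.st_g, hv], hu.symm, (V.holds_or _ _ _).2
          (Or.inl ⟨?_, (h4 V _).2 ?_⟩)⟩
        · show V.tag _ = true
          rw [V.uM_tag, V.tag_g, ht]
        · dsimp only
          rw [Equiv.symm_apply_apply, V.gA_mul, V.gA_inv', hwv]
          exact hO
      · rw [V.uM_id j _ fun h => ht ((V.edge_tag e v he hv).symm.trans h.2)] at hu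
        exact ⟨v, he, hv, hu.symm, (V.holds_or _ _ _).2
          (Or.inr ⟨ht, (h6 V v).2 (by dsimp only; rw [hwv]; exact hO)⟩)⟩

end Vale.Agent.P193.Core.Empty
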