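import Vale.Agent.P193.Full.Core.Empty.Obs

/-! The maps that make the points of the core model a structure of virtual points. The theorem
that they do is `pointSpace` (Core/Empty/PointSpace.lean). -/

namespace Vale.Agent.P193.Core.Empty

open FreeGroup

set_option linter.unusedSectionVars false

variable {d : Data}

/-- Outer translations of points. -/
def pHA : Outer d →* Equiv.Perm (Point d) where
  toFun t :=
    { toFun := fun x => { x with h := x.h * t⁻¹ }
      invFun := fun x => { x with h := x.h * t }
      left_inv := fun x => by cases x; simp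
      right_inv := fun x => by cases x; simp }
  map_one' := by ext x; simp
  map_mul' s t := by ext x; cases x; simp [mul_assoc]

/-- Inner translations of points. -/
def pGA : Inner d →* Equiv.Perm (Point d) where
  toFun t :=
    { toFun := fun x => { x with g := x.g * t⁻¹ }
      invFun := fun x => { x with g := x.g * t }
      left_inv := fun x => by cases x; simp
      right_inv := fun x => by cases x; simp }
  map_one' := by ext x; simp
  map_mul' s t := by ext x; cases x; simp [mul_assoc]

open Classical in
/-- An edge put in front of a point. -/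
noncomputable def pEdge (e : Edge d) (x : Point d) : Point d :=
  if h : e.OK ∧ x.st = e.tgt then
    ⟨e.src, .cons e h.1 (h.2 ▸ x.σ), x.tag, x.w, x.g, eT e * x.h⟩
  else x

theorem pEdge_mk (e : Edge d) (he : e.OK) (σ : Path d e.tgt) (b : Bool) (w : Wd d b) (g : Inner d)
    (h : Outer d) :
    pEdge e ⟨e.tgt, σ, b, w, g, h⟩ = ⟨e.src, .cons e he σ, b, w, g, eT e * h⟩ := by
  rw [pEdge, dif_pos ⟨he, rfl⟩]

open Classical in
/-- The maps by the guessed value. -/
noncomputable def pUM (j : Fin 3) : Equiv.Perm (Point d) where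
  toFun x := if x.st = .guess ∧ x.tag = true then
    { x with g := x.g * Facts.proj j (guessVal d x.σ) } else x
  invFun x := if x.st = .guess ∧ x.tag = true then
    { x with g := x.g * (Facts.proj j (guessVal d x.σ))⁻¹ } else x
  left_inv x := by
    obtain ⟨s, σ, b, w, g, h⟩ := x
    by_cases hc : s = .guess ∧ b = true
    · obtain ⟨rfl, rfl⟩ := hc
      dsimp only
      rw [if_pos (show (St.guess : State d) = St.guess ∧ true = true from ⟨rfl, rfl⟩)]
      simp
    · simp [hc]
  right_inv x := by
    obtain ⟨s, σ, b, w, g, h⟩ := x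
    by_cases hc : s = .guess ∧ b = true
    · obtain ⟨rfl, rfl⟩ := hc
      dsimp only
      rw [if_pos (show (St.guess : State d) = St.guess ∧ true = true from ⟨rfl, rfl⟩)]
      simp
    · simp [hc]

/-- The constructors as maps of points. -/
def pPush : Ctor d → Point d → Point d
  | .theta r, x => ⟨.fin, .nil, false, .theta x.σ x.tag x.w x.g, toInner d x.h * r, 1⟩
  | .omC, ⟨_, σ, true, c, g, h⟩ => ⟨.fin, .nil, true, .omC σ c h, g, 1⟩
  | .omC, x => ⟨.fin, .nil, true, .tpush .base, x.g, 1⟩
  | .omD, ⟨_, σ, false, c, g, h⟩ => ⟨.fin, .nil, false, .omD σ c h, g, 1⟩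
  | .omD, x => ⟨.fin, .nil, false, .base, x.g, 1⟩
  | .omK, ⟨.guess, σ, false, c, g, h⟩ => ⟨.fin, .nil, false, .omK σ c h, guessVal d σ * g, 1⟩
  | .omK, x => ⟨.fin, .nil, false, .base, x.g, 1⟩
  | .tM, ⟨_, _, false, c, g, _⟩ => ⟨.fin, .nil, true, .tpush c, g, 1⟩
  | .tM, x => ⟨.fin, .nil, true, .tpush .base, x.g, 1⟩

end Vale.Agent.P193.Core.Empty
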