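import Vale.Agent.P193.Full.Core.Empty.Exact

/-! Real points realise every finite piece of basic information at a virtual point. The real
points are used through `Samples`, the few facts about them that are needed. -/

namespace Vale.Agent.P193.Core.Empty

open FreeGroup

set_option linter.unusedSectionVars false

variable {d : Data} [DecidableEq d.M.A]

/-- Points with prescribed path, tag and coordinates. -/
structure Samples (P : VSpace d) where
  pt : ∀ {s : State d}, Path d s → Bool → Inner d → Outer d → P.U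
  st_mk : ∀ {s} (σ : Path d s) b g h, P.st (pt σ b g h) = s
  tag_mk : ∀ {s} (σ : Path d s) b g h, P.tag (pt σ b g h) = b
  cl_mk : ∀ {s} (σ : Path d s) b g h, P.cl (pt σ b g h) ↔ s = .guess ∧ clean d σ
  fr_mk : ∀ {s} (σ : Path d s) b g h,
    P.fr (pt σ b g h) = (h.2.1⁻¹ * offset d σ * h.2.2).toWord.head?
  hOne_mk : ∀ {s} (σ : Path d s) b g h, P.hOne (pt σ b g h) ↔ h = 1
  gOne_mk : ∀ {s} (σ : Path d s) b g h, P.gOne (pt σ b g h) ↔ b = false ∧ g = 1
  kOne_mk : ∀ {s} (σ : Path d s) b g h,
    P.kOne (pt σ b g h) ↔ b = false ∧ s = .guess ∧ guessVal d σ * g = 1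
  hA_mk : ∀ {s} (σ : Path d s) b g h t, P.hA t (pt σ b g h) = pt σ b g (h * t⁻¹)
  gA_mk : ∀ {s} (σ : Path d s) b g h t, P.gA t (pt σ b g h) = pt σ b (g * t⁻¹) h
  no_push : ∀ K v {s} (σ : Path d s) g, P.Dom K v → P.push K v ≠ pt σ false g 1

theorem toWord_tail {x : FA d} {c : Ltr d × Bool} {w : List (Ltr d × Bool)}
    (h : x.toWord = c :: w) : (sl (flipS c) * x).toWord = w := by
  have hr : FreeGroup.IsReduced (c :: w) := h ▸ isReduced_toWord
  rw [← mk_toWord (x := x), h, sl_cons, sl_flip, inv_mul_cancel_left,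
    toWord_mk_of_reduced (isReduced_cons_iff.1 hr).1]

theorem Samples.zp_mk {P : VSpace d} (S : Samples P) {s : State d} (σ : Path d s) (b : Bool)
    (g : Inner d) : ∀ (n : ℕ) (h : Outer d),
      P.zp n (S.pt σ b g h) = (h.2.1⁻¹ * offset d σ * h.2.2).toWord.take n := by
  intro n
  induction n with
  | zero => intro h; rfl
  | succ n ih =>
    intro h
    cases hc : (h.2.1⁻¹ * offset d σ * h.2.2).toWord with
    | nil => rw [P.zp_none (by rw [S.fr_mk, hc]; rfl)]; simp
    | cons c w =>
      rw [P.zp_some (c := c) (by rw [S.fr_mk, hc]; rfl), S.hA_mk, ih, List.take_succ_cons]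
      congr 1
      rw [← toWord_tail hc]
      simp [lT, mul_assoc]

theorem exists_notMem_FA (E : Finset (FA d)) : ∃ x : FA d, x ∉ E := by
  let c : Ltr d := (d.M.first, false)
  refine not_forall.1 fun hall => not_injective_infinite_finite
    (fun k : ℕ => (⟨_, hall (FreeGroup.mk (List.replicate k (c, true)))⟩ : {x // x ∈ E})) ?_
  intro a b hab
  have hr : ∀ k, FreeGroup.IsReduced (List.replicate k (c, true)) := fun k => by
    simpa [pos] using pos_isReduced (List.replicate k c)
  have := congrArg FreeGroup.toWord (congrArg Subtype.val hab)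
  simp only [toWord_mk_of_reduced (hr _)] at this
  simpa using congrArg List.length this

theorem exists_notMem_inner (X : Finset (Inner d)) : ∃ k : Inner d, k ∉ X := by
  refine not_forall.1 fun hall => not_injective_infinite_finite
    (fun k : ℕ => (⟨((1, (FreeGroup.of (0 : Fin 2)) ^ k, 1) : Inner d), hall _⟩ : {x // x ∈ X})) ?_
  intro a b hab
  have hr : ∀ k, FreeGroup.IsReduced (List.replicate k ((0 : Fin 2), true)) := fun k => by
    simpa [pos] using pos_isReduced (List.replicate k (0 : Fin 2))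
  have := congrArg (fun p : Inner d => p.2.1.toWord) (congrArg Subtype.val hab)
  simp only [toWord_of_pow] at this
  simpa using congrArg List.length this

/-- A value that hits exactly the marked member of a list. -/
theorem exists_choice (G : List (Inner d)) (p : Inner d → Prop)
    (hu : ∀ k k', p k → p k' → k = k') : ∃ g, ∀ k ∈ G, p k ↔ g = k := by
  classical
  by_cases h : ∃ k ∈ G, p k
  · obtain ⟨k₀, -, hk₀⟩ := h
    exact ⟨k₀, fun k _ => ⟨fun hk => hu _ _ hk₀ hk, fun e => e ▸ hk₀⟩⟩
  · obtain ⟨g, hg⟩ := exists_notMem_inner G.toFinset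
    exact ⟨g, fun k hk => iff_of_false (fun hp => h ⟨k, hk, hp⟩)
      fun e => hg (List.mem_toFinset.2 (e ▸ hk))⟩

/-- A letter that can be appended to a word and is not positive. -/
theorem exists_neg_ext (w : List (Ltr d × Bool)) (hr : FreeGroup.IsReduced w) :
    ∃ c : Ltr d × Bool, c.2 = false ∧ FreeGroup.IsReduced (w ++ [c]) := by
  refine ⟨((d.M.first, match w.getLast? with | some l => !l.1.2 | none => false), false), rfl,
    List.isChain_append.mpr ⟨hr, List.isChain_singleton _, ?_⟩⟩
  intro p hp q hq h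
  rw [Option.mem_def] at hp
  simp only [List.head?_cons, Option.mem_def, Option.some.injEq, hp] at hq
  subst hq
  obtain ⟨⟨a, i⟩, s⟩ := p
  simp at h

theorem ext_not_pos {w : List (Ltr d × Bool)} {c : Ltr d × Bool} (hc : c.2 = false)
    (hr : FreeGroup.IsReduced (w ++ [c])) {u : List (Ltr d × Bool)}
    (hu : ∀ s ∈ u, s.2 = true) : (FreeGroup.mk (w ++ [c])).toWord ≠ u := by
  rw [toWord_mk_of_reduced hr]
  intro h
  have := hu c (h ▸ List.mem_append_right _ (List.mem_singleton_self c))
  simp [hc] at this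

theorem par_pos (i : Bool) (u : List d.M.A) : ∀ s ∈ par i u, s.2 = true := by
  intro s hs
  simp [par] at hs
  obtain ⟨a, -, rfl⟩ := hs
  rfl

namespace VSpace

variable (V : VSpace d)

/-- Inner coordinates seen at one virtual point agree. -/
theorem gOne_unique {u : V.U} {k k' : Inner d} (h : V.gOne (V.gA k u))
    (h' : V.gOne (V.gA k' u)) : k = k' := by
  have := V.gdisj (k' * k⁻¹) _ h (by rwa [← V.gA_mul, inv_mul_cancel_right])
  exact (mul_inv_eq_one.1 this).symm

/-- Values of guessed times inner coordinate seen at one virtual point agree. -/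
theorem kOne_unique {u : V.U} {k k' : Inner d} (h : V.kOne (V.gA k u))
    (h' : V.kOne (V.gA k' u)) : k = k' := by
  obtain ⟨ht, hs⟩ := V.kOne_tag _ h
  rw [V.tag_g] at ht
  rw [V.st_g] at hs
  have e : ∀ m, V.gOne (V.gA m (V.push .omK u)) ↔ V.kOne (V.gA m u) := fun m => by
    rw [V.omK_g m u ht hs, V.omK_gOne _ (by rw [V.tag_g, ht]) (by rw [V.st_g, hs])]
  exact V.gOne_unique ((e k).2 h) ((e k').2 h')

end VSpace

/-- Over trivial outer coordinate, every prefix and every pair of inner values occurs at a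
sample. -/
theorem base_hOne (hG : Good d) (V : VSpace d) {u : V.U} (hu : V.hOne u) (N : ℕ)
    (G K : List (Inner d)) :
    ∃ (σ : Path d (V.st u)) (g : Inner d), (V.cl u ↔ V.st u = .guess ∧ clean d σ) ∧
      (offset d σ).toWord.take N = V.zp N u ∧
      (∀ k ∈ G, V.gOne (V.gA k u) ↔ V.tag u = false ∧ g = k) ∧
      ∀ k ∈ K, V.kOne (V.gA k u) ↔ V.tag u = false ∧ V.st u = .guess ∧ guessVal d σ * g = k := by
  classical
  have hw := V.zp_reduced N u
  -- a word with the right prefix outside every protected language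
  obtain ⟨c, hc, hcr⟩ := exists_neg_ext _ hw
  have hcone : (V.zp N u).length = N → ∀ x, x = FreeGroup.mk (V.zp N u ++ [c]) →
      x.toWord.take N = V.zp N u := fun hl x hx => by
    rw [hx, toWord_mk_of_reduced hcr, List.take_left' hl]
  have hexact : (V.zp N u).length ≠ N → V.Ex u (FreeGroup.mk (V.zp N u)) := fun hl =>
    V.ex_of_short N u (by have := V.zp_length N u; omega)
  by_cases hg : V.st u = .guess
  swap
  · obtain ⟨σ, hσ⟩ : ∃ σ : Path d (V.st u), (offset d σ).toWord.take N = V.zp N u := by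
      by_cases hl : (V.zp N u).length = N
      · have hshape : 0 < N → V.fr u = (V.zp N u).head? := fun h => by
          obtain ⟨m, rfl⟩ : ∃ m, N = m + 1 := ⟨N - 1, by omega⟩
          rw [V.zp_head]
        have hsh : 0 < N → Shape (V.st u) (FreeGroup.mk (V.zp N u ++ [c])) := fun h => by
          rw [← frShape_iff, toWord_mk_of_reduced hcr, List.head?_append, ← hshape h]
          have := V.shape u hu
          cases hf : V.fr u with
          | none =>
            rw [hshape h, List.head?_eq_none_iff] at hf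
            rw [hf] at hl
            simp at hl; omega
          | some z => rw [hf] at this; simpa using this
        by_cases hN : N = 0
        · subst hN
          obtain ⟨σ⟩ := V.live u
          exact ⟨σ, rfl⟩
        cases hs : V.st u with
        | guess => exact absurd hs hg
        | fin => exact hs ▸ V.plain_prefix N u hu (by rw [hs]; trivial)
        | halt i q => exact hs ▸ V.plain_prefix N u hu (by rw [hs]; trivial)
        | scan p s => exact hs ▸ V.plain_prefix N u hu (by rw [hs]; trivial)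
        | bd i =>
          obtain ⟨σ, hσ⟩ := bd_exists (hs ▸ hsh (by omega)) fun r hr =>
            ext_not_pos hc hcr (par_pos i r) (by rw [hr, toWord_pw])
          exact ⟨σ, hcone hl _ hσ⟩
        | step i q =>
          obtain ⟨σ, hσ⟩ := step_exists (hs ▸ hsh (by omega)) fun r v hr =>
            ext_not_pos hc hcr (u := par i r ++ par (!i) v) (fun s hs' => by
              rcases List.mem_append.1 hs' with h | h
              exacts [par_pos _ _ s h, par_pos _ _ s h]) (by rw [hr, toWord_two])
          exact ⟨σ, hcone hl _ hσ⟩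
      · obtain ⟨σ, hσ⟩ := V.exact_path hG hu hg (hexact hl)
        refine ⟨σ, ?_⟩
        rw [hσ, toWord_mk_of_reduced hw, List.take_of_length_le (V.zp_length N u)]
    obtain ⟨g, hg1⟩ := exists_choice G (fun k => V.gOne (V.gA k u))
      fun k k' h h' => V.gOne_unique h h'
    refine ⟨σ, g, iff_of_false (fun h => hg (V.cl_guess u h)) fun h => hg h.1, hσ, fun k hk => ?_,
      fun k _ => iff_of_false (fun h => hg ?_) fun h => hg h.2.1⟩
    · rw [hg1 k hk]
      refine ⟨fun h => ⟨?_, h⟩, And.right⟩
      have := V.gOne_tag _ ((hg1 k hk).2 h)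
      rwa [V.tag_g] at this
    · have := (V.kOne_tag _ h).2
      rwa [V.st_g] at this
  -- the guess state
  suffices h : ∃ (σ : Path d .guess) (g : Inner d), (V.cl u ↔ clean d σ) ∧
      (offset d σ).toWord.take N = V.zp N u ∧
      (V.tag u = false → (∀ k ∈ G, V.gOne (V.gA k u) ↔ g = k) ∧
        ∀ k ∈ K, V.kOne (V.gA k u) ↔ guessVal d σ * g = k) by
    obtain ⟨σ, g, h1, h2, h3⟩ := h
    rw [hg]
    refine ⟨σ, g, by simpa using h1, h2, fun k hk => ?_, fun k hk => ?_⟩
    · constructor
      · intro h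
        have ht := V.gOne_tag _ h
        rw [V.tag_g] at ht
        exact ⟨ht, ((h3 ht).1 k hk).1 h⟩
      · exact fun h => ((h3 h.1).1 k hk).2 h.2
    · constructor
      · intro h
        have ht := (V.kOne_tag _ h).1
        rw [V.tag_g] at ht
        exact ⟨ht, rfl, ((h3 ht).2 k hk).1 h⟩
      · exact fun h => ((h3 h.1).2 k hk).2 h.2.2
  have free : ∀ (x : FA d), x.toWord.take N = V.zp N u →
      (∀ m, ∃ σ : Path d .guess, (V.cl u ↔ clean d σ) ∧ offset d σ = x ∧ guessVal d σ = m) →
      ∃ (σ : Path d .guess) (g : Inner d), (V.cl u ↔ clean d σ) ∧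
        (offset d σ).toWord.take N = V.zp N u ∧
        (V.tag u = false → (∀ k ∈ G, V.gOne (V.gA k u) ↔ g = k) ∧
          ∀ k ∈ K, V.kOne (V.gA k u) ↔ guessVal d σ * g = k) := by
    intro x hx hex
    obtain ⟨g, hg1⟩ := exists_choice G (fun k => V.gOne (V.gA k u))
      fun k k' h h' => V.gOne_unique h h'
    obtain ⟨kk, hk1⟩ := exists_choice K (fun k => V.kOne (V.gA k u))
      fun k k' h h' => V.kOne_unique h h'
    obtain ⟨σ, h1, h2, h3⟩ := hex (kk * g⁻¹)
    refine ⟨σ, g, h1, by rw [h2, hx], fun _ => ⟨hg1, fun k hk => ?_⟩⟩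
    rw [h3, inv_mul_cancel_right]
    exact hk1 k hk
  by_cases hcl : V.cl u
  swap
  · refine free (if (V.zp N u).length = N then FreeGroup.mk (V.zp N u ++ [c])
      else FreeGroup.mk (V.zp N u)) ?_ fun m => ?_
    · split
      · exact hcone ‹_› _ rfl
      · rw [toWord_mk_of_reduced hw, List.take_of_length_le (V.zp_length N u)]
    · obtain ⟨σ, h1, h2, h3, -⟩ := junk_exists hG _ m 0
      exact ⟨σ, iff_of_false hcl h1, h2, h3⟩
  by_cases hl : (V.zp N u).length = N
  · refine free _ (hcone hl _ rfl) fun m => ?_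
    obtain ⟨σ, h1, h2, h3, -⟩ := nonlegit_exists hG (FreeGroup.mk (V.zp N u ++ [c]))
      (fun L b e => ext_not_pos hc hcr (par_pos false _) (by rw [e, toWord_legit])) m 0
    exact ⟨σ, iff_of_true hcl h1, h2, h3⟩
  have hx := hexact hl
  have htake : (FreeGroup.mk (V.zp N u)).toWord.take N = V.zp N u := by
    rw [toWord_mk_of_reduced hw, List.take_of_length_le (V.zp_length N u)]
  by_cases hleg : ∀ L b, FreeGroup.mk (V.zp N u) ≠ legit L b
  · refine free _ htake fun m => ?_
    obtain ⟨σ, h1, h2, h3, -⟩ := nonlegit_exists hG _ hleg m 0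
    exact ⟨σ, iff_of_true hcl h1, h2, h3⟩
  push Not at hleg
  obtain ⟨L, b, hLb⟩ := hleg
  rw [hLb] at hx htake
  let Q := (L.reverse.map d.gen).prod
  by_cases ht : V.tag u = false
  swap
  · obtain ⟨m, hm⟩ : ∃ m, Q * m = 1 ↔ b = true := by
      cases b
      · obtain ⟨z, hz⟩ := exists_notMem_inner (d := d) {Q⁻¹}
        exact ⟨z, iff_of_false (fun h => hz (Finset.mem_singleton.2
          (eq_inv_of_mul_eq_one_right h))) (by simp)⟩
      · exact ⟨Q⁻¹, by simp⟩
    obtain ⟨σ, h1, h2, -, -⟩ := legit_exists hG L b m hm 0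
    exact ⟨σ, 1, iff_of_true hcl h1, by rw [h2, htake], fun h => absurd h ht⟩
  have tie := V.legit_tie L b u hg hu hcl ht hx
  obtain ⟨g, hg'⟩ := exists_choice (G ++ K.map (Q * ·))
    (fun k => V.gOne (V.gA k u)) fun k k' h h' => V.gOne_unique h h'
  have hg1 : ∀ k ∈ G, V.gOne (V.gA k u) ↔ g = k := fun k hk =>
    hg' k (List.mem_append_left _ hk)
  have hg2 : ∀ k ∈ K, V.gOne (V.gA (Q * k) u) ↔ g = Q * k := fun k hk =>
    hg' (Q * k) (List.mem_append_right _ (List.mem_map.2 ⟨k, hk, rfl⟩))
  have tie' := fun k => tie (Q * k)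
  obtain ⟨kk, hk1, hrel⟩ : ∃ kk, (∀ k ∈ K, V.kOne (V.gA k u) ↔ kk = k) ∧
      (kk = Q⁻¹ * g ↔ b = true) := by
    cases b
    · by_cases hin : ∃ k ∈ K, V.kOne (V.gA k u)
      · obtain ⟨kk, hkK, hkk⟩ := hin
        refine ⟨kk, fun k _ => ⟨fun h => V.kOne_unique hkk h, fun e => e ▸ hkk⟩,
          iff_of_false (fun e => ?_) (by simp)⟩
        have := tie' kk
        simp only [Bool.false_eq_true, if_false] at this
        refine this ⟨(hg2 kk hkK).2 (by rw [e, mul_inv_cancel_left]), ?_⟩
        show V.kOne (V.gA (Q⁻¹ * (Q * kk)) u)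
        rwa [inv_mul_cancel_left]
      · obtain ⟨z, hz⟩ := exists_notMem_inner (d := d) (insert (Q⁻¹ * g) K.toFinset)
        exact ⟨z, fun k hk => iff_of_false (fun h => hin ⟨k, hk, h⟩)
            fun e => hz (Finset.mem_insert_of_mem (List.mem_toFinset.2 (e ▸ hk))),
          iff_of_false (fun e => hz (e ▸ Finset.mem_insert_self _ _)) (by simp)⟩
    · refine ⟨Q⁻¹ * g, fun k hk => ?_, iff_of_true rfl rfl⟩
      have := tie' k
      simp only [if_true] at this
      rw [show (L.reverse.map d.gen).prod⁻¹ * (Q * k) = k from inv_mul_cancel_left Q k,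
        hg2 k hk] at this
      rw [← this, inv_mul_eq_iff_eq_mul]
  obtain ⟨σ, h1, h2, h3, -⟩ := legit_exists hG L b (kk * g⁻¹) (by
    rw [← hrel, mul_eq_one_iff_inv_eq, eq_mul_inv_iff_mul_eq]
    exact eq_comm) 0
  refine ⟨σ, g, iff_of_true hcl h1, by rw [h2, htake], fun _ => ⟨hg1, fun k hk => ?_⟩⟩
  rw [h3, inv_mul_cancel_right]
  exact hk1 k hk

end Vale.Agent.P193.Core.Empty
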