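import Vale.Agent.P193.Full.Core.Empty.VSpace

/-! The offset of a virtual point as far as finitely many front letters see it: its prefixes, how
translations move them, and the front over the final state. -/

namespace Vale.Agent.P193.Core.Empty

open FreeGroup

set_option linter.unusedSectionVars false

variable {d : Data}

theorem flipS_flipS (c : Ltr d × Bool) : flipS (flipS c) = c := by
  obtain ⟨a, b⟩ := c; simp [flipS]

theorem sl_flip (c : Ltr d × Bool) : sl (flipS c) = (sl c)⁻¹ := by
  rw [sl, sl, inv_mk]; rfl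

theorem sl_cons (c : Ltr d × Bool) (L : List (Ltr d × Bool)) :
    (mk (c :: L) : FA d) = sl c * mk L := by rw [sl, mul_mk]; rfl

theorem lT_mul (s t : FA d) : lT (d := d) (s * t) = lT s * lT t := by
  simp [lT]

theorem rT_mul (s t : FA d) : rT (d := d) (s * t) = rT s * rT t := by
  simp [rT]

theorem lT_rT_comm (s t : FA d) : lT (d := d) s * rT t = rT t * lT s := by
  simp [lT, rT]

theorem outer_split (t : Outer d) :
    t = ((t.1, 1, 1) : Outer d) * (lT t.2.1 * rT t.2.2) := by
  obtain ⟨a, b, c⟩ := t; simp [lT, rT]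

namespace VSpace

variable (V : VSpace d)

theorem hA_mul (s t : Outer d) (u : V.U) : V.hA (s * t) u = V.hA s (V.hA t u) := by
  rw [_root_.map_mul]; rfl

theorem hA_one (u : V.U) : V.hA 1 u = u := by rw [_root_.map_one]; rfl

theorem gA_mul (s t : Inner d) (u : V.U) : V.gA (s * t) u = V.gA s (V.gA t u) := by
  rw [_root_.map_mul]; rfl

theorem gA_one (u : V.U) : V.gA 1 u = u := by rw [_root_.map_one]; rfl

theorem hA_inv (s : Outer d) (u : V.U) : V.hA s⁻¹ (V.hA s u) = u := by
  rw [← V.hA_mul, inv_mul_cancel, V.hA_one]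

theorem hA_inv' (s : Outer d) (u : V.U) : V.hA s (V.hA s⁻¹ u) = u := by
  rw [← V.hA_mul, mul_inv_cancel, V.hA_one]

theorem gA_inv (s : Inner d) (u : V.U) : V.gA s⁻¹ (V.gA s u) = u := by
  rw [← V.gA_mul, inv_mul_cancel, V.gA_one]

theorem gA_inv' (s : Inner d) (u : V.U) : V.gA s (V.gA s⁻¹ u) = u := by
  rw [← V.gA_mul, mul_inv_cancel, V.gA_one]

/-- The first `n` letters of the offset. -/
def zp : ℕ → V.U → List (Ltr d × Bool)
  | 0, _ => []
  | n + 1, u => match V.fr u with
    | none => []
    | some c => c :: zp n (V.hA (lT (sl (flipS c))) u)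

theorem zp_none {n : ℕ} {u : V.U} (h : V.fr u = none) : V.zp n u = [] := by
  cases n with
  | zero => rfl
  | succ n => simp [zp, h]

theorem zp_some {n : ℕ} {u : V.U} {c : Ltr d × Bool} (h : V.fr u = some c) :
    V.zp (n + 1) u = c :: V.zp n (V.hA (lT (sl (flipS c))) u) := by
  simp [zp, h]

theorem zp_head (n : ℕ) (u : V.U) : (V.zp (n + 1) u).head? = V.fr u := by
  cases h : V.fr u with
  | none => simp [V.zp_none h]
  | some c => simp [V.zp_some h]

theorem zp_length : ∀ (n : ℕ) (u : V.U), (V.zp n u).length ≤ n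
  | 0, _ => le_rfl
  | n + 1, u => by
    cases h : V.fr u with
    | none => simp [V.zp_none h]
    | some c => simp [V.zp_some h]; exact zp_length n _

theorem zp_reduced : ∀ (n : ℕ) (u : V.U), FreeGroup.IsReduced (V.zp n u)
  | 0, _ => List.isChain_nil
  | n + 1, u => by
    classical
    cases h : V.fr u with
    | none => rw [V.zp_none h]; exact List.isChain_nil
    | some c =>
      rw [V.zp_some h, isReduced_cons_iff]
      refine ⟨zp_reduced n _, fun y hy => ?_⟩
      cases n with
      | zero => simp [zp] at hy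
      | succ n =>
        rw [V.zp_head] at hy
        rintro rfl
        exact V.left_eq (flipS c) u (by rw [h, flipS_flipS]) hy

/-- Left translates of a point over which the offset is trivial. -/
theorem fr_left_none {w : V.U} (hw : V.fr w = none) :
    ∀ L : List (Ltr d × Bool), FreeGroup.IsReduced L →
      V.fr (V.hA (lT (FreeGroup.mk L)) w) = L.head? := by
  classical
  intro L
  induction L with
  | nil => intro _; rw [show lT (d := d) (FreeGroup.mk []) = 1 from rfl, V.hA_one]; simpa using hw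
  | cons c L ih =>
    intro hr
    obtain ⟨h1, h2⟩ := isReduced_cons_iff.1 hr
    rw [sl_cons, lT_mul, V.hA_mul]
    refine V.left_ne _ _ fun h => ?_
    rw [ih h1] at h
    exact h2 _ h rfl

/-- The front seen by a translation of a point over which the offset is trivial. -/
theorem fr_trans_none [DecidableEq d.M.A] {w : V.U} (hw : V.fr w = none) (t : Outer d) :
    V.fr (V.hA t w) = (t.2.1 * t.2.2⁻¹).toWord.head? := by
  have h : t = ((t.1, 1, 1) : Outer d) * (lT (t.2.1 * t.2.2⁻¹) * (1, t.2.2, t.2.2)) := by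
    obtain ⟨a, b, c⟩ := t; simp [lT]
  conv_lhs => rw [h, V.hA_mul, V.hA_mul, V.fr_k]
  have := V.fr_left_none (V.conj_none t.2.2 w hw) _ (isReduced_toWord (x := t.2.1 * t.2.2⁻¹))
  rwa [mk_toWord] at this

theorem none_right (c : Ltr d × Bool) (u : V.U) :
    V.fr (V.hA (rT (sl c)) u) = none ↔
      V.fr u = some c ∧ V.fr (V.hA (lT (sl (flipS c))) u) = none := by
  constructor
  · intro h
    have h' : V.fr (V.hA (lT (sl (flipS c))) u) = none := by
      have := V.conj_none (sl c)⁻¹ _ h
      rwa [← V.hA_mul, show ((1, (sl c)⁻¹, (sl c)⁻¹) : Outer d) * rT (sl c) = lT (sl (flipS c)) by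
        simp [lT, rT, sl_flip]] at this
    refine ⟨?_, h'⟩
    have := V.left_ne c (V.hA (lT (sl (flipS c))) u) (by rw [h']; simp)
    rwa [← V.hA_mul, ← lT_mul, sl_flip, mul_inv_cancel,
      show lT (d := d) 1 = 1 from rfl, V.hA_one] at this
  · rintro ⟨-, h⟩
    have := V.conj_none (sl c) _ h
    rwa [← V.hA_mul, show ((1, sl c, sl c) : Outer d) * lT (sl (flipS c)) = rT (sl c) by
      simp [lT, rT, sl_flip]] at this

end VSpace

variable {V W : VSpace d}

/-- Two points whose first `n` offset letters agree. -/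
def ZEq (n : ℕ) (u : V.U) (x : W.U) : Prop := V.zp n u = W.zp n x

theorem ZEq.fr {n : ℕ} {u : V.U} {x : W.U} (h : ZEq (n + 1) u x) : V.fr u = W.fr x := by
  rw [← V.zp_head n u, ← W.zp_head n x, h]

theorem ZEq.tail {n : ℕ} {u : V.U} {x : W.U} (h : ZEq (n + 1) u x) {c : Ltr d × Bool}
    (hc : V.fr u = some c) :
    ZEq n (V.hA (lT (sl (flipS c))) u) (W.hA (lT (sl (flipS c))) x) := by
  have h' : V.zp (n + 1) u = W.zp (n + 1) x := h
  rw [V.zp_some hc, W.zp_some (h.fr ▸ hc), List.cons.injEq] at h'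
  exact h'.2

theorem ZEq.pred : ∀ {n : ℕ} {u : V.U} {x : W.U}, ZEq (n + 1) u x → ZEq n u x := by
  intro n
  induction n with
  | zero => intros; rfl
  | succ n ih =>
    intro u x h
    show V.zp (n + 1) u = W.zp (n + 1) x
    cases hc : V.fr u with
    | none => rw [V.zp_none hc, W.zp_none (h.fr ▸ hc)]
    | some c => rw [V.zp_some hc, W.zp_some (h.fr ▸ hc), ih (h.tail hc)]

theorem ZEq.mono {m n : ℕ} (hmn : m ≤ n) {u : V.U} {x : W.U} (h : ZEq n u x) : ZEq m u x := by
  induction hmn with
  | refl => exact h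
  | step _ ih => exact ih h.pred

theorem ZEq.left (c : Ltr d × Bool) {n : ℕ} {u : V.U} {x : W.U} (h : ZEq (n + 1) u x) :
    ZEq n (V.hA (lT (sl c)) u) (W.hA (lT (sl c)) x) := by
  by_cases hc : V.fr u = some (flipS c)
  · have := h.tail hc
    rwa [flipS_flipS] at this
  · cases n with
    | zero => rfl
    | succ n =>
      have hx : W.fr x ≠ some (flipS c) := h.fr ▸ hc
      show V.zp (n + 1) _ = W.zp (n + 1) _
      rw [V.zp_some (V.left_ne c u hc), W.zp_some (W.left_ne c x hx)]
      congr 1
      rw [← V.hA_mul, ← W.hA_mul, ← lT_mul, sl_flip, inv_mul_cancel,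
        show lT (d := d) 1 = 1 from rfl, V.hA_one, W.hA_one]
      exact h.pred.pred

theorem ZEq.right (c : Ltr d × Bool) :
    ∀ {n : ℕ} {u : V.U} {x : W.U}, ZEq (n + 1) u x →
      ZEq n (V.hA (rT (sl c)) u) (W.hA (rT (sl c)) x) := by
  intro n
  induction n with
  | zero => intros; rfl
  | succ n ih =>
    intro u x h
    have hnone : V.fr (V.hA (rT (sl c)) u) = none ↔ W.fr (W.hA (rT (sl c)) x) = none := by
      rw [V.none_right, W.none_right]
      constructor
      · rintro ⟨h1, h2⟩
        exact ⟨h.fr ▸ h1, (h.tail h1).fr ▸ h2⟩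
      · rintro ⟨h1, h2⟩
        have h1' : V.fr u = some c := h.fr.trans h1
        exact ⟨h1', (h.tail h1').fr.trans h2⟩
    show V.zp (n + 1) _ = W.zp (n + 1) _
    by_cases hv : V.fr (V.hA (rT (sl c)) u) = none
    · rw [V.zp_none hv, W.zp_none (hnone.1 hv)]
    cases hu : V.fr u with
    | none =>
      have hx : W.fr x = none := h.fr ▸ hu
      have e : rT (sl c) = lT (sl (flipS c)) * ((1, sl c, sl c) : Outer d) := by
        simp [lT, rT, sl_flip]
      rw [e, V.hA_mul, W.hA_mul]
      refine ZEq.left (flipS c) ?_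
      show V.zp (n + 2) _ = W.zp (n + 2) _
      rw [V.zp_none (V.conj_none _ _ hu), W.zp_none (W.conj_none _ _ hx)]
    | some a =>
      have hx : W.fr x = some a := h.fr ▸ hu
      have e1 := V.right_eq c u (by rw [hu]; simp) hv
      have e2 := W.right_eq c x (by rw [hx]; simp) (mt hnone.2 hv)
      rw [hu] at e1; rw [hx] at e2
      rw [V.zp_some e1, W.zp_some e2]
      congr 1
      rw [← V.hA_mul, ← W.hA_mul, lT_rT_comm, V.hA_mul, W.hA_mul]
      exact ih (h.tail hu)

theorem ZEq.inner (k : d.Γ₀) : ∀ {n : ℕ} {u : V.U} {x : W.U}, ZEq n u x →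
    ZEq n (V.hA (k, 1, 1) u) (W.hA (k, 1, 1) x) := by
  intro n
  induction n with
  | zero => intros; rfl
  | succ n ih =>
    intro u x h
    show V.zp (n + 1) _ = W.zp (n + 1) _
    cases hu : V.fr u with
    | none => rw [V.zp_none (by rw [V.fr_k, hu]), W.zp_none (by rw [W.fr_k, ← h.fr, hu])]
    | some a =>
      rw [V.zp_some (V.fr_k k u ▸ hu), W.zp_some (W.fr_k k x ▸ h.fr ▸ hu)]
      congr 1
      have e : lT (sl (flipS a)) * ((k, 1, 1) : Outer d) = (k, 1, 1) * lT (sl (flipS a)) := by
        simp [lT]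
      rw [← V.hA_mul, ← W.hA_mul, e, V.hA_mul, W.hA_mul]
      exact ih (h.tail hu)

/-- Agreement survives a translation, losing boundedly many letters. -/
theorem ZEq.exists_shift (t : Outer d) :
    ∃ K, ∀ (V W : VSpace d) (u : V.U) (x : W.U) (n : ℕ),
      ZEq (n + K) u x → ZEq n (V.hA t u) (W.hA t x) := by
  have hl : ∀ L : List (Ltr d × Bool), ∀ (V W : VSpace d) (u : V.U) (x : W.U) (n : ℕ),
      ZEq (n + L.length) u x →
        ZEq n (V.hA (lT (FreeGroup.mk L)) u) (W.hA (lT (FreeGroup.mk L)) x) := by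
    intro L
    induction L with
    | nil =>
      intro V W u x n h
      rw [show lT (d := d) (FreeGroup.mk []) = 1 from rfl, V.hA_one, W.hA_one]; simpa using h
    | cons c L ih =>
      intro V W u x n h
      rw [sl_cons, lT_mul, V.hA_mul, W.hA_mul]
      refine ZEq.left c (ih V W u x (n + 1) ?_)
      rwa [show n + 1 + L.length = n + (c :: L).length by simp; omega]
  have hr : ∀ L : List (Ltr d × Bool), ∀ (V W : VSpace d) (u : V.U) (x : W.U) (n : ℕ),
      ZEq (n + L.length) u x →
        ZEq n (V.hA (rT (FreeGroup.mk L)) u) (W.hA (rT (FreeGroup.mk L)) x) := by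
    intro L
    induction L with
    | nil =>
      intro V W u x n h
      rw [show rT (d := d) (FreeGroup.mk []) = 1 from rfl, V.hA_one, W.hA_one]; simpa using h
    | cons c L ih =>
      intro V W u x n h
      rw [sl_cons, rT_mul, V.hA_mul, W.hA_mul]
      refine ZEq.right c (ih V W u x (n + 1) ?_)
      rwa [show n + 1 + L.length = n + (c :: L).length by simp; omega]
  classical
  refine ⟨t.2.1.toWord.length + t.2.2.toWord.length, fun V W u x n h => ?_⟩
  rw [outer_split t, V.hA_mul, V.hA_mul, W.hA_mul, W.hA_mul]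
  refine ZEq.inner t.1 ?_
  have h2 := hr t.2.2.toWord V W u x (n + t.2.1.toWord.length) (by rwa [add_assoc])
  have h1 := hl t.2.1.toWord V W _ _ n h2
  rwa [mk_toWord, mk_toWord] at h1

/-- The front of a translate is decided by finitely many letters. -/
theorem ZEq.exists_front (t : Outer d) :
    ∃ K, ∀ (V W : VSpace d) (u : V.U) (x : W.U) (n : ℕ), K ≤ n → ZEq n u x →
      V.fr (V.hA t u) = W.fr (W.hA t x) := by
  obtain ⟨K, hK⟩ := ZEq.exists_shift t
  refine ⟨1 + K, fun V W u x n hn h => ?_⟩
  exact ZEq.fr (n := 0) (hK V W u x 1 (h.mono hn))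

end Vale.Agent.P193.Core.Empty
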